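import Vale.Agent.P168.Limit.GibbsLemmas
import Vale.Agent.P168.Limit.Toolkit

/-! Gaussian fields in a finite Gibbs measure: Jensen bounds and variance. -/

open MeasureTheory ProbabilityTheory
open scoped BigOperators NNReal ENNReal

noncomputable section

namespace Vale.Agent.P168.Limit.SelfAvg

open Toolkit

variable {X : Type*} [Fintype X] [Nonempty X] {ι : Type*} [Fintype ι]

lemma logZ_tilt' (H δ : X → ℝ) :
    logZ (fun x => H x + δ x) - logZ H = Real.log (gav H fun x => Real.exp (δ x)) :=
  haveI : Inhabited X := Classical.inhabited_of_nonempty inferInstance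
  logZ_tilt H δ

lemma gav_le_logZ_sub' (H δ : X → ℝ) : gav H δ ≤ logZ (fun x => H x + δ x) - logZ H :=
  haveI : Inhabited X := Classical.inhabited_of_nonempty inferInstance
  gav_le_logZ_sub H δ

lemma abs_logZ_sub_le' (H δ : X → ℝ) {c : ℝ} (h : ∀ x, |δ x| ≤ c) :
    |logZ (fun x => H x + δ x) - logZ H| ≤ c :=
  haveI : Inhabited X := Classical.inhabited_of_nonempty inferInstance
  abs_logZ_sub_le H δ h

/-- A Gaussian field with coefficients `φ`. -/
def field (φ : X → ι → ℝ) (z : ι → ℝ) (x : X) : ℝ := ∑ i, φ x i * z i

omit [Fintype X] [Nonempty X] in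
lemma field_neg (φ : X → ι → ℝ) (z : ι → ℝ) (x : X) : field φ (-z) x = -field φ z x := by
  simp [field]

omit [Fintype X] [Nonempty X] in
lemma measurable_field (φ : X → ι → ℝ) (x : X) : Measurable fun z => field φ z x :=
  Finset.measurable_sum _ fun i _ => (measurable_pi_apply i).const_mul _

omit [Nonempty X] in
lemma measurable_logZ_field (A : X → ℝ) (φ : X → ι → ℝ) :
    Measurable fun z => logZ fun x => A x + field φ z x :=
  (Finset.measurable_sum _ fun x _ => ((measurable_field φ x).const_add (A x)).exp).log

omit [Nonempty X] in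
lemma abs_field_le (φ : X → ι → ℝ) (z : ι → ℝ) (x : X) :
    |field φ z x| ≤ ∑ i, (∑ y, |φ y i|) * |z i| := by
  refine (Finset.abs_sum_le_sum_abs _ _).trans (Finset.sum_le_sum fun i _ => ?_)
  rw [abs_mul]
  exact mul_le_mul_of_nonneg_right
    (Finset.single_le_sum (f := fun y => |φ y i|) (fun y _ => abs_nonneg _) (Finset.mem_univ x))
    (abs_nonneg _)

lemma memLp_logZ_field (A : X → ℝ) (φ : X → ι → ℝ) :
    MemLp (fun z => logZ fun x => A x + field φ z x) 2 (gaussPi ι) :=
  memLp_two_of_lipschitz (measurable_logZ_field A φ) (A := |logZ A|)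
    (L := fun i => ∑ y, |φ y i|) fun z => by
      have := abs_logZ_sub_le' A (field φ z) (abs_field_le φ z)
      have := abs_sub_abs_le_abs_sub (logZ fun x => A x + field φ z x) (logZ A)
      linarith

lemma integrable_logZ_field (A : X → ℝ) (φ : X → ι → ℝ) :
    Integrable (fun z => logZ fun x => A x + field φ z x) (gaussPi ι) :=
  (memLp_logZ_field A φ).integrable one_le_two

/-- A centred Gaussian field raises the mean of `log Z`, by at most half its variance. -/
theorem field_gap (A : X → ℝ) (φ : X → ι → ℝ) {v : ℝ} (hv : ∀ x, ∑ i, φ x i ^ 2 ≤ v) :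
    logZ A ≤ ∫ z, (logZ fun x => A x + field φ z x) ∂gaussPi ι ∧
      ∫ z, (logZ fun x => A x + field φ z x) ∂gaussPi ι ≤ logZ A + v / 2 := by
  set F : (ι → ℝ) → ℝ := fun z => logZ fun x => A x + field φ z x with hF
  have hi : Integrable F (gaussPi ι) := integrable_logZ_field A φ
  constructor
  · have hn : ∫ z, F (-z) ∂gaussPi ι = ∫ z, F z ∂gaussPi ι :=
      (gaussPi_map_neg (ι := ι)).integral_comp (MeasurableEquiv.neg (ι → ℝ)).measurableEmbedding F
    have hi' : Integrable (fun z => F (-z)) (gaussPi ι) :=
      gaussPi_map_neg.integrable_comp_of_integrable hi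
    have h2 : ∀ z, 2 * logZ A ≤ F z + F (-z) := fun z => by
      have h1 := gav_le_logZ_sub' A (field φ z)
      have h3 := gav_le_logZ_sub' A (field φ (-z))
      have : gav A (field φ (-z)) = -gav A (field φ z) := by
        simp [gav, field_neg, Finset.sum_neg_distrib]
      simp only [hF]
      linarith
    have h := integral_mono (μ := gaussPi ι) (f := fun _ => 2 * logZ A) (g := fun z => F z + F (-z))
      (integrable_const _) (hi.add hi') h2
    rw [integral_add hi hi', hn] at h
    simp only [integral_const, probReal_univ, one_smul] at h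
    linarith
  · set c := Real.exp (v / 2) with hc
    have hcp : 0 < c := Real.exp_pos _
    set G : (ι → ℝ) → ℝ := fun z => gav A fun x => Real.exp (field φ z x) with hG
    have hGi : Integrable G (gaussPi ι) :=
      integrable_finsetSum _ fun x _ => (integrable_exp_linear (φ x)).const_mul _
    have hb : ∀ z, F z ≤ logZ A + (G z / c - 1 + v / 2) := fun z => by
      have h1 := logZ_tilt' A (field φ z)
      have hp := gav_exp_pos A (field φ z)
      have h2 := Real.log_le_sub_one_of_pos (div_pos hp hcp)
      rw [Real.log_div hp.ne' hcp.ne', hc, Real.log_exp] at h2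
      simp only [hF, hG] at h1 ⊢
      linarith
    have i2 : Integrable (fun z => G z / c - 1) (gaussPi ι) :=
      (hGi.div_const c).sub (integrable_const _)
    have i3 : Integrable (fun z => G z / c - 1 + v / 2) (gaussPi ι) := i2.add (integrable_const _)
    refine (integral_mono hi ((integrable_const (logZ A)).add i3) hb).trans ?_
    simp only [Pi.add_apply]
    rw [integral_add (integrable_const _) i3, integral_add i2 (integrable_const _),
      integral_sub (hGi.div_const c) (integrable_const _), integral_div c]
    simp only [integral_const, probReal_univ, one_smul]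
    have hle : ∫ z, G z ∂gaussPi ι ≤ c := by
      simp only [hG, gav]
      simp only [field]
      rw [integral_finsetSum _ fun x _ => (integrable_exp_linear (φ x)).const_mul _]
      refine (Finset.sum_le_sum fun x _ => ?_).trans_eq
        (show ∑ x, gw A x * c = c by rw [← Finset.sum_mul, sum_gw, one_mul])
      rw [integral_const_mul, integral_exp_linear]
      exact mul_le_mul_of_nonneg_left (Real.exp_le_exp.2 (by linarith [hv x])) (gw_nonneg A x)
    have : (∫ z, G z ∂gaussPi ι) / c ≤ 1 := (div_le_one hcp).2 hle
    linarith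

/-- Switching on the coordinates in `S` raises the mean of `log Z`, by at most half their
variance. -/
theorem field_gap_on (A : X → ℝ) (φ : X → ι → ℝ) (S : ι → Prop) [DecidablePred S] {v : ℝ}
    (hv : ∀ x, ∑ i, (if S i then φ x i ^ 2 else 0) ≤ v) :
    ∫ z, (logZ fun x => A x + field (fun x i => if S i then 0 else φ x i) z x) ∂gaussPi ι ≤
        ∫ z, (logZ fun x => A x + field φ z x) ∂gaussPi ι ∧
      ∫ z, (logZ fun x => A x + field φ z x) ∂gaussPi ι ≤
        ∫ z, (logZ fun x => A x + field (fun x i => if S i then 0 else φ x i) z x) ∂gaussPi ι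
          + v / 2 := by
  set T := MeasurableEquiv.piEquivPiSubtypeProd (fun _ : ι => ℝ) S with hT
  have hmp : MeasurePreserving T (gaussPi ι)
      ((gaussPi {i // S i}).prod (gaussPi {i // ¬ S i})) :=
    measurePreserving_piEquivPiSubtypeProd (fun _ : ι => gauss) S
  set φ0 : X → ι → ℝ := fun x i => if S i then 0 else φ x i with hφ0
  set φ1 : X → {i // S i} → ℝ := fun x i => φ x i.1 with hφ1
  set φ2 : X → {i // ¬ S i} → ℝ := fun x i => φ x i.1 with hφ2
  have hsplit : ∀ z x, field φ z x = field φ2 (T z).2 x + field φ1 (T z).1 x := by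
    intro z x
    simp only [field, hφ1, hφ2, hT]
    rw [add_comm, ← Fintype.sum_subtype_add_sum_subtype S fun i => φ x i * z i]
    rfl
  have hsplit0 : ∀ z x, field φ0 z x = field φ2 (T z).2 x := by
    intro z x
    simp only [field, hφ0, hφ2, hT]
    rw [← Fintype.sum_subtype_add_sum_subtype S fun i => (if S i then 0 else φ x i) * z i]
    have h1 : ∑ i : {i // S i}, (if S i.1 then 0 else φ x i.1) * z i.1 = 0 :=
      Finset.sum_eq_zero fun i _ => by simp [i.2]
    rw [h1, zero_add]
    exact Finset.sum_congr rfl fun i _ => by rw [if_neg i.2]; rfl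
  set F : ({i // S i} → ℝ) × ({i // ¬ S i} → ℝ) → ℝ :=
    fun p => logZ fun x => (A x + field φ2 p.2 x) + field φ1 p.1 x with hF
  set F0 : ({i // ¬ S i} → ℝ) → ℝ := fun w => logZ fun x => A x + field φ2 w x with hF0
  have e1 : (fun z => logZ fun x => A x + field φ z x) = fun z => F (T z) := by
    funext z; simp only [hF, hsplit, add_assoc]
  have e0 : (fun z => logZ fun x => A x + field φ0 z x) = fun z => F0 (T z).2 := by
    funext z; simp only [hF0, hsplit0]
  have iF : Integrable F ((gaussPi {i // S i}).prod (gaussPi {i // ¬ S i})) := by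
    rw [← hmp.integrable_comp_emb T.measurableEmbedding]
    have h := integrable_logZ_field A φ
    rw [e1] at h
    exact h
  have iF0 : Integrable F0 (gaussPi {i // ¬ S i}) := integrable_logZ_field A φ2
  rw [e1, e0, hmp.integral_comp T.measurableEmbedding F,
    hmp.integral_comp T.measurableEmbedding (fun p => F0 p.2), integral_prod_symm F iF,
    integral_fun_snd]
  simp only [probReal_univ, one_smul]
  have hv1 : ∀ x, ∑ i : {i // S i}, φ1 x i ^ 2 ≤ v := fun x => by
    refine le_trans (le_of_eq ?_) (hv x)
    rw [← Fintype.sum_subtype_add_sum_subtype S fun i => if S i then φ x i ^ 2 else 0]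
    have h1 : ∑ i : {i // ¬ S i}, (if S i.1 then φ x i.1 ^ 2 else 0) = 0 :=
      Finset.sum_eq_zero fun i _ => by simp [i.2]
    rw [h1, add_zero]
    exact Finset.sum_congr rfl fun i _ => by rw [if_pos i.2]
  have hg := fun w => field_gap (fun x => A x + field φ2 w x) φ1 hv1
  constructor
  · exact integral_mono iF0 iF.integral_prod_right fun w => (hg w).1
  · refine (integral_mono iF.integral_prod_right (iF0.add (integrable_const (v / 2)))
      fun w => (hg w).2).trans_eq ?_
    simp only [Pi.add_apply]
    rw [integral_add iF0 (integrable_const _)]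
    simp

/-- Changing the coefficients on `S` and the rest by at most `c`. -/
theorem field_change (A A' : X → ℝ) (φ φ' : X → ι → ℝ) (S : ι → Prop) [DecidablePred S] {c v : ℝ}
    (hA : ∀ x, |A' x - A x| ≤ c) (hφ : ∀ x i, ¬ S i → φ' x i = φ x i)
    (hv : ∀ x, ∑ i, (if S i then φ x i ^ 2 else 0) ≤ v)
    (hv' : ∀ x, ∑ i, (if S i then φ' x i ^ 2 else 0) ≤ v) :
    |∫ z, (logZ fun x => A x + field φ z x) ∂gaussPi ι -
      ∫ z, (logZ fun x => A' x + field φ' z x) ∂gaussPi ι| ≤ c + v / 2 := by
  set φ0 : X → ι → ℝ := fun x i => if S i then 0 else φ x i with hφ0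
  have e : (fun x i => if S i then 0 else φ' x i) = φ0 := by
    funext x i
    simp only [hφ0]
    split_ifs with h
    · rfl
    · exact hφ x i h
  obtain ⟨a1, a2⟩ := field_gap_on A φ S hv
  obtain ⟨b1, b2⟩ := field_gap_on A' φ' S hv'
  rw [e] at b1 b2
  have h0 : |∫ z, (logZ fun x => A' x + field φ0 z x) ∂gaussPi ι -
      ∫ z, (logZ fun x => A x + field φ0 z x) ∂gaussPi ι| ≤ c := by
    rw [← integral_sub (integrable_logZ_field A' φ0) (integrable_logZ_field A φ0)]
    rw [← Real.norm_eq_abs]
    refine le_trans (norm_integral_le_of_norm_le_const (μ := gaussPi ι) (C := c)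
      (ae_of_all _ fun z => ?_)) (le_of_eq (by simp))
    have h := abs_logZ_sub_le' (fun x => A x + field φ0 z x) (fun x => A' x - A x) hA
    have e2 : (fun x => A x + field φ0 z x + (A' x - A x)) = fun x => A' x + field φ0 z x := by
      funext x; ring
    rw [e2] at h
    exact h
  rw [abs_le] at h0 ⊢
  simp only [hφ0] at a1 a2 b1 b2 h0 ⊢
  constructor <;> linarith

/-- The variance of `log Z` in a Gaussian field. -/
theorem field_variance (A : X → ℝ) (φ : X → ι → ℝ) {L : ι → ℝ} (hL : ∀ x i, |φ x i| ≤ L i) :
    variance (fun z => logZ fun x => A x + field φ z x) (gaussPi ι) ≤ ∑ i, L i ^ 2 := by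
  classical
  have hd : ∀ i : ι, Integrable (fun p : ℝ × ℝ => (L i * |p.1 - p.2|) ^ 2) (gauss.prod gauss) := by
    intro i
    refine ((((integrable_gauss_sq.comp_fst gauss).add (integrable_gauss_sq.comp_snd gauss)).const_mul
      (2 * L i ^ 2)).mono' (by fun_prop) (ae_of_all _ fun p => ?_))
    simp only [Pi.add_apply, mul_pow, sq_abs, Real.norm_eq_abs]
    rw [abs_of_nonneg (by positivity)]
    nlinarith [sq_nonneg (L i), sq_nonneg (p.1 + p.2)]
  refine (efronStein (fun _ : ι => gauss) (measurable_logZ_field A φ) (memLp_logZ_field A φ)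
    (d := fun i a b => L i * |a - b|) hd fun z i a => ?_).trans ?_
  · have hf : ∀ x, field φ (Function.update z i a) x = field φ z x + φ x i * (a - z i) := by
      intro x
      simp only [field]
      rw [← Finset.add_sum_erase _ _ (Finset.mem_univ i),
        ← Finset.add_sum_erase _ (fun j => φ x j * z j) (Finset.mem_univ i),
        Function.update_self, Finset.sum_congr rfl fun j hj => by
          rw [Function.update_of_ne (Finset.ne_of_mem_erase hj)]]
      ring
    rw [abs_sub_comm]
    simp only [hf, ← add_assoc]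
    refine abs_logZ_sub_le' (fun x => A x + field φ z x) (fun x => φ x i * (a - z i)) fun x => ?_
    rw [abs_mul, abs_sub_comm a]
    exact mul_le_mul_of_nonneg_right (hL x i) (abs_nonneg _)
  · refine Finset.sum_le_sum fun i _ => ?_
    simp only [mul_pow, sq_abs, integral_const_mul]
    have e : ∀ a : ℝ, ∫ b, (a - b) ^ 2 ∂gauss = a ^ 2 + 1 := by
      intro a
      have h1 : ∀ b, (a - b) ^ 2 = a ^ 2 + ((-2 * a) * b + b ^ 2) := fun b => by ring
      have i1 : Integrable (fun b => (-2 * a) * b + b ^ 2) gauss :=
        (integrable_gauss_id.const_mul _).add integrable_gauss_sq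
      simp_rw [h1]
      rw [integral_add (integrable_const _) i1,
        integral_add (integrable_gauss_id.const_mul _) integrable_gauss_sq, integral_const_mul,
        integral_gauss_id, integral_gauss_sq]
      simp
    simp_rw [e]
    rw [integral_add integrable_gauss_sq (integrable_const _), integral_gauss_sq]
    simp
    linarith

end Vale.Agent.P168.Limit.SelfAvg
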