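import Vale.Agent.P168.Limit.Gibbs

/-! Self-averaging of a derivative from convexity, for a random finite Gibbs measure. -/

open MeasureTheory ProbabilityTheory
open scoped BigOperators

noncomputable section

namespace Vale.Agent.P168.Limit.SelfAvg

variable {X : Type*} [Fintype X] [Nonempty X]

lemma partition_pos (H : X → ℝ) : 0 < ∑ y, Real.exp (H y) :=
  Finset.sum_pos (fun _ _ => Real.exp_pos _) Finset.univ_nonempty

lemma gw_nonneg' (H : X → ℝ) (x : X) : 0 ≤ gw H x :=
  div_nonneg (Real.exp_pos _).le (partition_pos H).le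

lemma gw_sum (H : X → ℝ) : ∑ x, gw H x = 1 := by
  simp only [gw, ← Finset.sum_div]
  exact div_self (partition_pos H).ne'

lemma gav_const' (H : X → ℝ) (c : ℝ) : gav H (fun _ => c) = c := by
  simp [gav, ← Finset.sum_mul, gw_sum]

lemma gav_mono' (H : X → ℝ) {f g : X → ℝ} (h : ∀ x, f x ≤ g x) : gav H f ≤ gav H g :=
  Finset.sum_le_sum fun x _ => mul_le_mul_of_nonneg_left (h x) (gw_nonneg' H x)

omit [Nonempty X] in
lemma gav_add' (H : X → ℝ) (f g : X → ℝ) :
    gav H (fun x => f x + g x) = gav H f + gav H g := by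
  simp [gav, mul_add, Finset.sum_add_distrib]

omit [Nonempty X] in
lemma gav_const_mul' (H : X → ℝ) (c : ℝ) (f : X → ℝ) :
    gav H (fun x => c * f x) = c * gav H f := by
  simp only [gav, Finset.mul_sum]
  exact Finset.sum_congr rfl fun x _ => by ring

lemma abs_gav_le_sum (H f : X → ℝ) : |gav H f| ≤ ∑ x, |f x| := by
  refine (Finset.abs_sum_le_sum_abs _ _).trans (Finset.sum_le_sum fun x _ => ?_)
  rw [abs_mul, abs_of_nonneg (gw_nonneg' H x)]
  refine mul_le_of_le_one_left (abs_nonneg _) ?_
  exact (Finset.single_le_sum (fun y _ => gw_nonneg' H y) (Finset.mem_univ x)).trans_eq (gw_sum H)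

/-- Jensen: `log Z` lies above its tangent. -/
lemma tangent_le (H O : X → ℝ) (u : ℝ) :
    u * gav H O ≤ logZ (fun x => H x + u * O x) - logZ H := by
  set m := u * gav H O with hm
  have e : (∑ x, Real.exp (H x + u * O x)) / (∑ y, Real.exp (H y)) =
      gav H fun x => Real.exp (u * O x) := by
    simp only [gav, gw, Real.exp_add, Finset.sum_div]
    exact Finset.sum_congr rfl fun x _ => by ring
  have h1 : Real.exp m ≤ gav H fun x => Real.exp (u * O x) := by
    have h2 : ∀ x, Real.exp m * (1 + (u * O x - m)) ≤ Real.exp (u * O x) := by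
      intro x
      have := mul_le_mul_of_nonneg_left (Real.add_one_le_exp (u * O x - m)) (Real.exp_pos m).le
      rw [← Real.exp_add, add_sub_cancel] at this
      linarith
    refine le_trans (le_of_eq ?_) (gav_mono' H h2)
    rw [gav_const_mul', gav_add', gav_const']
    have : gav H (fun x => u * O x - m) = 0 := by
      simp only [sub_eq_add_neg]
      rw [gav_add', gav_const_mul', gav_const']
      ring
    rw [this]
    ring
  simp only [logZ]
  rw [← Real.log_div (partition_pos _).ne' (partition_pos _).ne', e]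
  rw [← Real.log_exp m]
  exact Real.log_le_log (Real.exp_pos _) h1

lemma gav_sq_sub (H O : X → ℝ) :
    gav H (fun x => (O x - gav H O) ^ 2) = gav H (fun x => O x ^ 2) - gav H O ^ 2 := by
  set m := gav H O with hm
  have : (fun x => (O x - m) ^ 2) = fun x => O x ^ 2 + ((-2 * m) * O x + m ^ 2) := by
    funext x; ring
  rw [this, gav_add', gav_add', gav_const_mul', gav_const', ← hm]
  ring

omit [Nonempty X] in
lemma gav_eq_div (H f : X → ℝ) :
    gav H f = (∑ x, Real.exp (H x) * f x) / ∑ x, Real.exp (H x) := by
  simp only [gav, gw, Finset.sum_div]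
  exact Finset.sum_congr rfl fun x _ => by ring

lemma hasDerivAt_gav (H O : X → ℝ) (t : ℝ) :
    HasDerivAt (fun s => gav (fun x => H x + s * O x) O)
      (gav (fun x => H x + t * O x)
        fun x => (O x - gav (fun x => H x + t * O x) O) ^ 2) t := by
  have he : ∀ x, HasDerivAt (fun s => Real.exp (H x + s * O x))
      (Real.exp (H x + t * O x) * O x) t := fun x => by
    simpa using (((hasDerivAt_id t).mul_const (O x)).const_add (H x)).exp
  have hZ := HasDerivAt.fun_sum (u := Finset.univ) fun x _ => he x
  have hN := HasDerivAt.fun_sum (u := Finset.univ) fun x _ => (he x).mul_const (O x)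
  have hq := hN.div hZ (partition_pos _).ne'
  have hfun : (fun s => gav (fun x => H x + s * O x) O) = fun s =>
      (∑ x, Real.exp (H x + s * O x) * O x) / ∑ x, Real.exp (H x + s * O x) := by
    funext s
    exact gav_eq_div _ _
  rw [hfun, gav_sq_sub, gav_eq_div, gav_eq_div]
  refine hq.congr_deriv ?_
  have hp := (partition_pos fun x => H x + t * O x).ne'
  simp only [mul_assoc, ← pow_two]
  field_simp

variable {D : Type*} [MeasurableSpace D] {ν : Measure D} [IsProbabilityMeasure ν]

/-- Averaged over the parameter, an observable is close to its mean. -/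
theorem self_average_one {H O : D → X → ℝ} (hH : ∀ x, Measurable fun d => H d x)
    (hO : ∀ x, Measurable fun d => O d x)
    (hOi : ∀ x, Integrable (fun d => O d x) ν) (hOsq : ∀ x, Integrable (fun d => O d x ^ 2) ν)
    (hf : ∀ t, Integrable (fun d => logZ fun x => H d x + t * O d x) ν)
    {V B a y : ℝ} (ha : 0 < a) (hy : 0 < y) (hy1 : y ≤ 1)
    (hV : ∀ t ∈ Set.Icc (0 : ℝ) 3, ∫ d, |(logZ fun x => H d x + t * O d x) -
      ∫ d', (logZ fun x => H d' x + t * O d' x) ∂ν| ∂ν ≤ V)
    (hB : ∀ t ∈ Set.Icc (0 : ℝ) 3, |∫ d, gav (fun x => H d x + t * O d x) (O d) ∂ν| ≤ B) :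
    ∫ t in Set.Icc (1 : ℝ) 2, ∫ d, gav (fun x => H d x + t * O d x) (fun x => |O d x -
      ∫ d', gav (fun x => H d' x + t * O d' x) (O d') ∂ν|) ∂ν ≤
      B / a + a / 2 + 3 * V / y + 4 * y * B := by
  set G : ℝ → D → X → ℝ := fun t d x => H d x + t * O d x with hG
  set p : ℝ → D → ℝ := fun t d => gav (G t d) (O d) with hp
  set w : ℝ → D → ℝ := fun t d => gav (G t d) fun x => (O d x - p t d) ^ 2 with hw
  set g1 : ℝ → ℝ := fun t => ∫ d, p t d ∂ν with hg1
  set f : ℝ → D → ℝ := fun t d => logZ (G t d) with hfd
  set g : ℝ → ℝ := fun t => ∫ d, f t d ∂ν with hgd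
  set bd : D → ℝ := fun d => ∑ x, |O d x| with hbd
  have hGm : ∀ x, Measurable fun z : ℝ × D => G z.1 z.2 x := fun x =>
    ((hH x).comp measurable_snd).add (measurable_fst.mul ((hO x).comp measurable_snd))
  have hgwm : ∀ x, Measurable fun z : ℝ × D => gw (G z.1 z.2) x := fun x =>
    (hGm x).exp.div (Finset.measurable_sum _ fun y _ => (hGm y).exp)
  have hpm : Measurable fun z : ℝ × D => p z.1 z.2 :=
    Finset.measurable_sum _ fun x _ => (hgwm x).mul ((hO x).comp measurable_snd)
  have hwm : Measurable fun z : ℝ × D => w z.1 z.2 :=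
    Finset.measurable_sum _ fun x _ =>
      (hgwm x).mul ((((hO x).comp measurable_snd).sub hpm).pow_const 2)
  have hbdi : Integrable bd ν := integrable_finsetSum _ fun x _ => (hOi x).abs
  have hpi : ∀ t, Integrable (p t) ν := fun t =>
    hbdi.mono' (hpm.comp measurable_prodMk_left).aestronglyMeasurable
      (ae_of_all _ fun d => abs_gav_le_sum _ _)
  have hw0 : ∀ t d, 0 ≤ w t d := fun t d =>
    Finset.sum_nonneg fun x _ => mul_nonneg (gw_nonneg' _ _) (sq_nonneg _)
  have hwb : ∀ t d, w t d ≤ ∑ x, O d x ^ 2 := fun t d => by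
    have h1 := gav_sq_sub (G t d) (O d)
    have h2 := abs_gav_le_sum (G t d) (fun x => O d x ^ 2)
    simp only [abs_pow, sq_abs] at h2
    have h3 : w t d ≤ gav (G t d) fun x => O d x ^ 2 := by
      rw [hw]; simp only [hp]; rw [h1]; linarith [sq_nonneg (gav (G t d) (O d))]
    exact h3.trans ((le_abs_self _).trans h2)
  have hsqi : Integrable (fun d => ∑ x, O d x ^ 2) ν := integrable_finsetSum _ fun x _ => hOsq x
  have hwi : ∀ t, Integrable (w t) ν := fun t =>
    hsqi.mono' (hwm.comp measurable_prodMk_left).aestronglyMeasurable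
      (ae_of_all _ fun d => by rw [Real.norm_eq_abs, abs_of_nonneg (hw0 t d)]; exact hwb t d)
  set I : Measure ℝ := volume.restrict (Set.Icc (1 : ℝ) 2) with hI
  have : IsProbabilityMeasure I := ⟨by simp [hI]; norm_num⟩
  have hwprod : Integrable (fun z : ℝ × D => w z.1 z.2) (I.prod ν) :=
    (hsqi.comp_snd I).mono' hwm.aestronglyMeasurable
      (ae_of_all _ fun z => by rw [Real.norm_eq_abs, abs_of_nonneg (hw0 _ _)]; exact hwb _ _)
  -- the thermal part
  have hth : ∫ t, ∫ d, w t d ∂ν ∂I ≤ 2 * B := by
    rw [integral_integral_swap hwprod]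
    have e : ∀ d, ∫ t, w t d ∂I = p 2 d - p 1 d := by
      intro d
      rw [hI, integral_Icc_eq_integral_Ioc, ← intervalIntegral.integral_of_le one_le_two]
      refine intervalIntegral.integral_eq_sub_of_hasDerivAt
        (fun t _ => hasDerivAt_gav (H d) (O d) t) ?_
      refine Continuous.intervalIntegrable ?_ _ _
      simp only [hw, hp, hG, gav, gw]
      fun_prop (disch := intro; exact (partition_pos _).ne')
    simp_rw [e]
    rw [integral_sub (hpi 2) (hpi 1)]
    have h2 := (abs_le.1 (hB 2 (by norm_num))).2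
    have h1 := (abs_le.1 (hB 1 (by norm_num))).1
    linarith
  -- the disorder part
  have htan : ∀ t u d, (u - t) * p t d ≤ f u d - f t d := fun t u d => by
    have := tangent_le (G t d) (O d) (u - t)
    refine this.trans_eq ?_
    simp only [hfd, hG]
    congr 2
    funext x
    ring
  have hmono : Monotone g1 := by
    intro t u htu
    refine integral_mono (hpi t) (hpi u) fun d => ?_
    rcases htu.eq_or_lt with rfl | hlt
    · exact le_rfl
    · have h1 := htan t u d
      have h2 := htan u t d
      nlinarith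
  have htang : ∀ t u, (u - t) * g1 t ≤ g u - g t := fun t u => by
    simp only [hg1, hgd]
    rw [← integral_const_mul, ← integral_sub (hf u) (hf t)]
    exact integral_mono ((hpi t).const_mul _) ((hf u).sub (hf t)) fun d => htan t u d
  set Dv : ℝ → D → ℝ := fun t d => |f t d - g t| with hDv
  have hmean : ∀ t d, |p t d - g1 t| ≤
      (Dv (t + y) d + Dv t d + Dv (t - y) d) / y + (g1 (t + y) - g1 (t - y)) := by
    intro t d
    have u1 := htan t (t + y) d
    have u2 := htan t (t - y) d
    have v1 := htang (t + y) t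
    have v2 := htang (t - y) t
    have m1 : g1 (t - y) ≤ g1 t := hmono (by linarith)
    have m2 : g1 t ≤ g1 (t + y) := hmono (by linarith)
    have b1 := abs_le.1 (le_refl (Dv (t + y) d))
    have b2 := abs_le.1 (le_refl (Dv t d))
    have b3 := abs_le.1 (le_refl (Dv (t - y) d))
    have n1 : 0 ≤ Dv (t + y) d := abs_nonneg _
    have n3 : 0 ≤ Dv (t - y) d := abs_nonneg _
    rw [abs_le]
    constructor
    · rw [neg_le_iff_add_nonneg', ← mul_nonneg_iff_of_pos_left hy]
      field_simp
      nlinarith
    · rw [← sub_nonneg, ← mul_nonneg_iff_of_pos_left hy]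
      field_simp
      nlinarith
  have hpt : ∀ t d, gav (G t d) (fun x => |O d x - g1 t|) ≤
      w t d / (2 * a) + a / 2 + |p t d - g1 t| := by
    intro t d
    have h1 : ∀ x, |O d x - g1 t| ≤
        (2 * a)⁻¹ * (O d x - p t d) ^ 2 + (a / 2 + |p t d - g1 t|) := by
      intro x
      have := abs_sub_le (O d x) (p t d) (g1 t)
      have h2 : |O d x - p t d| ≤ (2 * a)⁻¹ * (O d x - p t d) ^ 2 + a / 2 := by
        rw [← sub_nonneg]
        have e : (2 * a)⁻¹ * (O d x - p t d) ^ 2 + a / 2 - |O d x - p t d| =
            (|O d x - p t d| - a) ^ 2 / (2 * a) := by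
          rw [← sq_abs (O d x - p t d)]; field_simp; ring
        rw [e]; positivity
      linarith
    refine (gav_mono' _ h1).trans_eq ?_
    rw [gav_add', gav_const_mul', gav_const', hw]
    field_simp
    ring
  have hfi : ∀ t, Integrable (Dv t) ν := fun t => ((hf t).sub (integrable_const _)).abs
  have hstep : ∀ t ∈ Set.Icc (1 : ℝ) 2, ∫ d, gav (G t d) (fun x => |O d x - g1 t|) ∂ν ≤
      (∫ d, w t d ∂ν) / (2 * a) + a / 2 + 3 * V / y + (g1 (t + y) - g1 (t - y)) := by
    intro t ht
    obtain ⟨ht1, ht2⟩ := ht
    have i1 : Integrable (fun d => w t d / (2 * a) + a / 2) ν :=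
      ((hwi t).div_const _).add (integrable_const _)
    have i2 : Integrable (fun d => (Dv (t + y) d + Dv t d + Dv (t - y) d) / y) ν :=
      (((hfi _).add (hfi _)).add (hfi _)).div_const y
    refine (integral_mono_of_nonneg (ae_of_all _ fun d => Finset.sum_nonneg fun x _ =>
      mul_nonneg (gw_nonneg' _ _) (abs_nonneg _))
      ((i1.add i2).add (integrable_const (g1 (t + y) - g1 (t - y))))
      (ae_of_all _ fun d => (hpt t d).trans (by
        have := hmean t d
        simp only [Pi.add_apply]
        linarith))).trans ?_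
    simp only [Pi.add_apply]
    have i12 : Integrable (fun d => w t d / (2 * a) + a / 2 +
        (Dv (t + y) d + Dv t d + Dv (t - y) d) / y) ν := i1.add i2
    have i3 : Integrable (fun d => Dv (t + y) d + Dv t d) ν := (hfi _).add (hfi _)
    rw [integral_add i12 (integrable_const _), integral_add i1 i2,
      integral_add ((hwi t).div_const _) (integrable_const _), integral_div (2 * a), integral_div y,
      integral_add i3 (hfi _), integral_add (hfi _) (hfi _)]
    simp only [integral_const, probReal_univ, one_smul]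
    have e1 := hV (t + y) ⟨by linarith, by linarith⟩
    have e2 := hV t ⟨by linarith, by linarith⟩
    have e3 := hV (t - y) ⟨by linarith, by linarith⟩
    have : (∫ d, Dv (t + y) d ∂ν + ∫ d, Dv t d ∂ν + ∫ d, Dv (t - y) d ∂ν) / y ≤ 3 * V / y :=
      div_le_div_of_nonneg_right (by simp only [hDv, hfd, hgd, hG]; linarith) hy.le
    linarith
  have iw : Integrable (fun t => ∫ d, w t d ∂ν) I := hwprod.integral_prod_left
  have ii : ∀ u v : ℝ, IntervalIntegrable g1 volume u v := fun u v => hmono.intervalIntegrable
  have ig : ∀ c, Integrable (fun t => g1 (t + c)) I := fun c =>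
    ((hmono.comp (monotone_id.add_const c)).monotoneOn _).integrableOn_isCompact isCompact_Icc
  have ig' : Integrable (fun t => g1 (t + y) - g1 (t - y)) I := (ig y).sub (ig (-y))
  have hshift : ∫ t, (g1 (t + y) - g1 (t - y)) ∂I ≤ 4 * y * B := by
    rw [hI, integral_Icc_eq_integral_Ioc, ← intervalIntegral.integral_of_le one_le_two,
      intervalIntegral.integral_sub, intervalIntegral.integral_comp_add_right,
      intervalIntegral.integral_comp_sub_right]
    · rw [← intervalIntegral.integral_add_adjacent_intervals (ii (1 + y) (2 - y)) (ii (2 - y) (2 + y)),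
        ← intervalIntegral.integral_add_adjacent_intervals (ii (1 - y) (1 + y)) (ii (1 + y) (2 - y))]
      have hb : ∀ u v : ℝ, 0 ≤ u → v ≤ 3 → u ≤ v → |∫ t in u..v, g1 t| ≤ B * (v - u) := by
        intro u v hu hv huv
        have := intervalIntegral.norm_integral_le_of_norm_le_const (C := B) (a := u) (b := v) (f := g1)
          fun t ht => by
            rw [Set.uIoc_of_le huv] at ht
            exact hB t ⟨by linarith [ht.1], by linarith [ht.2]⟩
        rwa [abs_of_nonneg (sub_nonneg.2 huv)] at this
      have h1 := (abs_le.1 (hb (2 - y) (2 + y) (by linarith) (by linarith) (by linarith))).2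
      have h2 := (abs_le.1 (hb (1 - y) (1 + y) (by linarith) (by linarith) (by linarith))).1
      nlinarith
    · exact (hmono.comp (monotone_id.add_const y)).intervalIntegrable
    · exact (hmono.comp (monotone_id.add_const (-y))).intervalIntegrable
  have ijoint : Integrable (fun t => (∫ d, w t d ∂ν) / (2 * a) + a / 2 + 3 * V / y) I :=
    ((iw.div_const _).add (integrable_const _)).add (integrable_const _)
  refine (integral_mono_of_nonneg (ae_of_all _ fun t => integral_nonneg fun d =>
    Finset.sum_nonneg fun x _ => mul_nonneg (gw_nonneg' _ _) (abs_nonneg _)) (ijoint.add ig') ?_).trans ?_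
  · rw [hI]
    exact (ae_restrict_iff' measurableSet_Icc).2 (ae_of_all _ fun t ht => hstep t ht)
  simp only [Pi.add_apply]
  have i4 : Integrable (fun t => (∫ d, w t d ∂ν) / (2 * a) + a / 2) I :=
    (iw.div_const _).add (integrable_const _)
  rw [integral_add ijoint ig', integral_add i4 (integrable_const _),
    integral_add (iw.div_const _) (integrable_const _), integral_div (2 * a)]
  simp only [integral_const, probReal_univ, one_smul]
  have : (∫ t, ∫ d, w t d ∂ν ∂I) / (2 * a) ≤ B / a := by
    calc (∫ t, ∫ d, w t d ∂ν ∂I) / (2 * a) ≤ 2 * B / (2 * a) :=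
          div_le_div_of_nonneg_right hth (by positivity)
      _ = B / a := by field_simp
  linarith

end Vale.Agent.P168.Limit.SelfAvg
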