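import Vale.Agent.P168.Defs
import Vale.Agent.P168.Limit.Toolkit

/-! Efron–Stein for uniform laws on finite products. -/

open MeasureTheory ProbabilityTheory
open scoped BigOperators NNReal ENNReal

noncomputable section

namespace Vale.Agent.P168.Limit.SelfAvg

open Toolkit

variable {α β : Type*} [MeasurableSpace α] [MeasurableSpace β]

lemma isProbabilityMeasure_unifFin (α : Type*) [Fintype α] [Nonempty α] [MeasurableSpace α]
    [MeasurableSingletonClass α] : IsProbabilityMeasure (unifFin α) := by
  constructor
  rw [unifFin, Measure.smul_apply, Measure.count_apply_finite _ Set.finite_univ]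
  simp only [Set.Finite.toFinset_univ, Finset.card_univ, smul_eq_mul]
  exact ENNReal.inv_mul_cancel (by exact_mod_cast Fintype.card_ne_zero) (ENNReal.natCast_ne_top _)

lemma unifFin_singleton (α : Type*) [Fintype α] [MeasurableSpace α] [MeasurableSingletonClass α]
    (a : α) : unifFin α {a} = ((Fintype.card α : ℝ≥0∞))⁻¹ := by
  rw [unifFin, Measure.smul_apply, Measure.count_singleton, smul_eq_mul, mul_one]

lemma unifFin_map_equiv {α β : Type*} [Fintype α] [Fintype β] [MeasurableSpace α]
    [MeasurableSpace β] [MeasurableSingletonClass α] [MeasurableSingletonClass β] (e : α ≃ β) :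
    MeasurePreserving e (unifFin α) (unifFin β) := by
  refine ⟨measurable_of_finite e, Measure.ext_of_singleton fun b => ?_⟩
  rw [Measure.map_apply (measurable_of_finite e) (measurableSet_singleton b)]
  have : e ⁻¹' {b} = {e.symm b} := by
    ext a
    simp [Equiv.eq_symm_apply]
  rw [this, unifFin_singleton, unifFin_singleton, Fintype.card_congr e]

lemma unifFin_prod (α β : Type*) [Fintype α] [Fintype β] [MeasurableSpace α] [MeasurableSpace β]
    [MeasurableSingletonClass α] [MeasurableSingletonClass β] [Nonempty α] [Nonempty β] :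
    (unifFin α).prod (unifFin β) = unifFin (α × β) := by
  have := isProbabilityMeasure_unifFin β
  refine Measure.ext_of_singleton fun z => ?_
  rw [← Set.singleton_prod_singleton, Measure.prod_prod, Set.singleton_prod_singleton,
    unifFin_singleton, unifFin_singleton, unifFin_singleton, Fintype.card_prod, Nat.cast_mul,
    ENNReal.mul_inv (Or.inr (ENNReal.natCast_ne_top _)) (Or.inl (ENNReal.natCast_ne_top _))]

/-- Efron–Stein for the uniform law on a finite product. -/
theorem efronStein_unif {ι : Type*} [Fintype ι] [DecidableEq ι] {γ : ι → Type*}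
    [∀ i, Fintype (γ i)] [∀ i, Nonempty (γ i)] [∀ i, MeasurableSpace (γ i)]
    [∀ i, MeasurableSingletonClass (γ i)] (f : (∀ i, γ i) → ℝ) (c : ι → ℝ)
    (hb : ∀ x i a, |f x - f (Function.update x i a)| ≤ c i) :
    variance f (unifFin (∀ i, γ i)) ≤ ∑ i, c i ^ 2 / 2 := by
  have hp : ∀ i, IsProbabilityMeasure (unifFin (γ i)) := fun i => isProbabilityMeasure_unifFin _
  have e : unifFin (∀ i, γ i) = Measure.pi fun i => unifFin (γ i) := by
    refine Measure.ext_of_singleton fun x => ?_
    rw [unifFin_singleton, ← Set.univ_pi_singleton, Measure.pi_pi]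
    simp only [unifFin_singleton]
    rw [Fintype.card_pi, Nat.cast_prod, ← ENNReal.prod_inv_distrib fun i _ j _ _ =>
      Or.inl (by exact_mod_cast Fintype.card_ne_zero)]
  rw [e]
  refine (efronStein _ (measurable_of_finite f) MemLp.of_discrete (d := fun i _ _ => c i)
    (fun i => integrable_const _) hb).trans_eq ?_
  simp only [integral_const, probReal_univ, one_smul]
  exact Finset.sum_congr rfl fun i _ => by ring

/-- A variance on a product, from section variances and the mean function. -/
theorem variance_prod_le {μ : Measure α} {ν : Measure β} [IsProbabilityMeasure μ]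
    [IsProbabilityMeasure ν] {f : α × β → ℝ} (hf : MemLp f 2 (μ.prod ν)) {g : α → ℝ} {W : ℝ}
    (hgi : Integrable g μ) (h1 : ∀ x, variance (fun y => f (x, y)) ν ≤ g x)
    (hg : ∫ x, g x ∂μ ≤ W) {V : ℝ} (h2 : variance (fun x => ∫ y, f (x, y) ∂ν) μ ≤ V) :
    variance f (μ.prod ν) ≤ W + V := by
  rw [variance_prod_eq hf]
  refine add_le_add ((integral_mono_of_nonneg (ae_of_all _ fun x => variance_nonneg _ _) hgi
    (ae_of_all _ h1)).trans hg) h2

/-- A difference bound passes to the mean. -/
theorem abs_integral_sub_le {ν : Measure β} [IsProbabilityMeasure ν] {f g : β → ℝ}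
    (hf : Integrable f ν) (hg : Integrable g ν) {c : ℝ} (h : ∀ y, |f y - g y| ≤ c) :
    |∫ y, f y ∂ν - ∫ y, g y ∂ν| ≤ c := by
  rw [← integral_sub hf hg, ← Real.norm_eq_abs]
  exact le_trans (norm_integral_le_of_norm_le_const (ae_of_all _ h)) (le_of_eq (by simp))

/-- Efron–Stein for a family of uniform products with iterated index. -/
theorem efronStein_unif_curry {L : Type*} [Fintype L] [DecidableEq L] {R : Type*} [Fintype R]
    [DecidableEq R] {γ : L → Type*} [∀ g, Fintype (γ g)] [∀ g, Nonempty (γ g)]
    [∀ g, MeasurableSpace (γ g)] [∀ g, MeasurableSingletonClass (γ g)]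
    (f : (∀ g : L, R → γ g) → ℝ) (c : ℝ)
    (hb : ∀ x g u a, |f x - f (Function.update x g (Function.update (x g) u a))| ≤ c) :
    variance f (unifFin (∀ g : L, R → γ g)) ≤ (Fintype.card L * Fintype.card R : ℕ) * (c ^ 2 / 2) := by
  set e : (∀ i : (_ : L) × R, γ i.1) ≃ (∀ g : L, R → γ g) := Equiv.piCurry fun g _ => γ g
  have hmp := unifFin_map_equiv e
  have := isProbabilityMeasure_unifFin (∀ g : L, R → γ g)
  rw [← hmp.variance_fun_comp (measurable_of_finite f).aemeasurable]
  refine (efronStein_unif (fun x => f (e x)) (fun _ => c) fun x i a => ?_).trans_eq ?_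
  · obtain ⟨g, u⟩ := i
    have : e (Function.update x ⟨g, u⟩ a) =
        Function.update (e x) g (Function.update (e x g) u a) := by
      funext g' u'
      simp only [e, Equiv.piCurry_apply, Sigma.curry]
      by_cases hg : g' = g
      · subst hg
        rw [Function.update_self]
        by_cases hu : u' = u
        · subst hu; simp
        · rw [Function.update_of_ne (by simp [hu]), Function.update_of_ne hu]
          rfl
      · rw [Function.update_of_ne (by simp [hg]), Function.update_of_ne hg]
        rfl
    rw [this]
    exact hb _ _ _ _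
  · simp

end Vale.Agent.P168.Limit.SelfAvg
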