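import Vale.Agent.P168.Limit.SelfAvg.Bounds
import Vale.Agent.P168.Limit.SelfAvg.Product

/-! The variance of the perturbed log partition function. -/

open MeasureTheory ProbabilityTheory
open scoped BigOperators NNReal ENNReal

noncomputable section

namespace Vale.Agent.P168.Limit.SelfAvg

open Toolkit

variable {K N : ℕ} {p : Params} {X₀ : ℝ} {x : Obs p.L → ℝ}

lemma extra_variance [NeZero N] (x : Obs p.L → ℝ) (A : (Fin N → Bool) → ℝ)
    (a : (g : Fin p.L) → Fin p.S → Fin (arity g) → Fin N) :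
    variance (fun w => gaussMean x A (a, w))
        (unifFin (((g : Fin p.L) → Fin p.Q → Fin (arity g) → Fin N) × (Fin p.L → Fin p.Q))) ≤
      (p.L : ℝ) * ((p.Q : ℝ) / 8) ^ 2 / 2 + (p.L * p.Q : ℕ) * ((1 / 4 : ℝ) ^ 2 / 2) := by
  classical
  have : NeZero p.Q := ⟨p.Q_pos.ne'⟩
  have i2 := isProbabilityMeasure_unifFin ((g : Fin p.L) → Fin p.Q → Fin (arity g) → Fin N)
  have i3 := isProbabilityMeasure_unifFin (Fin p.L → Fin p.Q)
  rw [← unifFin_prod]
  refine variance_prod_le (f := fun w => gaussMean x A (a, w)) MemLp.of_discrete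
    (g := fun _ => (p.L : ℝ) * ((p.Q : ℝ) / 8) ^ 2 / 2) (integrable_const _) (fun b => ?_)
    (le_of_eq (by simp)) ?_
  · refine (efronStein_unif (fun k : (Fin p.L → Fin p.Q) => gaussMean x A (a, (b, k))) (fun _ => (p.Q : ℝ) / 8)
      fun k g v => ?_).trans_eq (by simp; ring)
    refine gaussMean_extra x A (a, (b, k)) (b, Function.update k g v) fun σ => ?_
    simp only [tiltPart, ← Finset.sum_sub_distrib, add_sub_add_left_eq_sub]
    rw [Fintype.sum_eq_single g fun g' hg' => by
      simp [Function.update_of_ne hg']]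
    refine (Finset.abs_sum_le_sum_abs _ _).trans ((Finset.sum_le_sum (g := fun _ => (1 / 8 : ℝ))
      fun j _ => ?_).trans_eq (by simp; ring))
    have := abs_slotTilt_le g fun i => σ (b g j i)
    split_ifs <;> simp only [sub_self, sub_zero, zero_sub, abs_neg, abs_zero] <;> linarith
  · refine (efronStein_unif_curry (γ := fun g : Fin p.L => Fin (arity g) → Fin N)
      (fun b : (g : Fin p.L) → Fin p.Q → Fin (arity g) → Fin N => ∫ k, gaussMean x A (a, (b, k)) ∂unifFin (Fin p.L → Fin p.Q)) (1 / 4)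
      fun b g u z => abs_integral_sub_le .of_finite .of_finite fun k => ?_).trans_eq (by simp)
    refine gaussMean_extra x A (a, (b, k))
      (Function.update b g (Function.update (b g) u z), k) fun σ => ?_
    simp only [tiltPart, ← Finset.sum_sub_distrib, add_sub_add_left_eq_sub]
    rw [Fintype.sum_eq_single g fun g' hg' => by
      simp [Function.update_of_ne hg'], Fintype.sum_eq_single u fun u' hu' => by
      simp [Function.update_self, Function.update_of_ne hu']]
    simp only [Function.update_self]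
    have h1 := abs_slotTilt_le g fun i => σ (z i)
    have h2 := abs_slotTilt_le g fun i => σ (b g u i)
    have h3 := abs_sub (slotTilt g fun i => σ (z i)) (slotTilt g fun i => σ (b g u i))
    split_ifs
    · linarith
    · simp

lemma env_variance [NeZero N] (hx : ∀ o, |x o| ≤ X₀) (A : (Fin N → Bool) → ℝ) :
    variance (gaussMean x A) (unifFin (Env p N)) ≤
      ((p.L : ℝ) * ((p.Q : ℝ) / 8) ^ 2 / 2 + (p.L * p.Q : ℕ) * ((1 / 4 : ℝ) ^ 2 / 2)) +
      (p.L * p.S : ℕ) * ((1 / 4 + p.s ^ 2 * X₀ * (2 * ((p.L : ℝ) + 1) / p.S) +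
          p.s ^ 2 * X₀ ^ 2 * (Fintype.card (Mono p.L) * ((p.L : ℝ) / p.S)) / 2) ^ 2 / 2) := by
  classical
  have : NeZero p.Q := ⟨p.Q_pos.ne'⟩
  have : NeZero p.S := ⟨p.S_pos.ne'⟩
  have i1 := isProbabilityMeasure_unifFin ((g : Fin p.L) → Fin p.S → Fin (arity g) → Fin N)
  have i4 := isProbabilityMeasure_unifFin
    (((g : Fin p.L) → Fin p.Q → Fin (arity g) → Fin N) × (Fin p.L → Fin p.Q))
  unfold Env
  rw [← unifFin_prod]
  refine variance_prod_le MemLp.of_discrete
    (g := fun _ => (p.L : ℝ) * ((p.Q : ℝ) / 8) ^ 2 / 2 + (p.L * p.Q : ℕ) * ((1 / 4 : ℝ) ^ 2 / 2))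
    (integrable_const _) (fun a => extra_variance x A a) (le_of_eq (by simp)) ?_
  refine (efronStein_unif_curry (γ := fun g : Fin p.L => Fin (arity g) → Fin N)
    (fun a : (g : Fin p.L) → Fin p.S → Fin (arity g) → Fin N =>
      ∫ w, gaussMean x A (a, w) ∂unifFin _) _
    fun a g u z => abs_integral_sub_le .of_finite .of_finite fun w =>
      gaussMean_slot hx A (a, w) g u z).trans_eq (by simp)

lemma abs_detPart_le (hx : ∀ o, |x o| ≤ X₀) (e : Env p N) (σ : Fin N → Bool) :
    |detPart p x e σ| ≤ p.L * ((p.S : ℝ) / 8 + p.Q / 8) + p.s ^ 2 * (((p.L : ℝ) + 1) * X₀) := by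
  refine (abs_add_le _ _).trans (add_le_add ?_ ?_)
  · refine (Finset.abs_sum_le_sum_abs _ _).trans ((Finset.sum_le_sum
      (g := fun _ => (p.S : ℝ) / 8 + p.Q / 8) fun g _ => ?_).trans_eq
        (by simp; ring))
    refine (abs_add_le _ _).trans (add_le_add
      ((Finset.abs_sum_le_sum_abs _ _).trans ((Finset.sum_le_sum (g := fun _ => (1 / 8 : ℝ))
        fun u _ => abs_slotTilt_le _ _).trans_eq (by simp; ring)))
      ((Finset.abs_sum_le_sum_abs _ _).trans ((Finset.sum_le_sum (g := fun _ => (1 / 8 : ℝ))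
        fun j _ => ?_).trans_eq (by simp; ring))))
    split_ifs
    · exact abs_slotTilt_le _ _
    · simp
  · rw [abs_mul, abs_of_nonneg (sq_nonneg p.s)]
    refine mul_le_mul_of_nonneg_left ((Finset.abs_sum_le_sum_abs _ _).trans
      ((Finset.sum_le_sum (g := fun _ => X₀) fun o _ => ?_).trans_eq (by simp))) (sq_nonneg _)
    rw [abs_mul]
    exact (mul_le_of_le_one_right (abs_nonneg _) (abs_linObs_le e o σ)).trans (hx _)

/-- A bound on the coefficients of the Gaussian variables. -/
def coefBound (p : Params) (X₀ : ℝ) (f : Feat p.L p.S) : ℝ :=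
  Real.sqrt (p.s ^ 2 * X₀ ^ 2 * ((p.S : ℝ) ^ f.1.1.val)⁻¹)

lemma abs_coef_le (hx : ∀ o, |x o| ≤ X₀) (e : Env p N) (σ : Fin N → Bool) (f : Feat p.L p.S) :
    |coef p x e σ f| ≤ coefBound p X₀ f := by
  rw [← Real.sqrt_sq_eq_abs]
  exact Real.sqrt_le_sqrt (sq_coef_le hx e σ f)

lemma sum_coefBound_sq (p : Params) (X₀ : ℝ) :
    ∑ f : Feat p.L p.S, coefBound p X₀ f ^ 2 = Fintype.card (Mono p.L) * (p.s ^ 2 * X₀ ^ 2) := by
  have h : ∀ f : Feat p.L p.S, coefBound p X₀ f ^ 2 =
      p.s ^ 2 * X₀ ^ 2 * ((p.S : ℝ) ^ f.1.1.val)⁻¹ := fun f => Real.sq_sqrt (by positivity)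
  simp_rw [h]
  rw [sum_mono_feat]
  simp_rw [← Finset.mul_sum, sum_inv_pow]
  simp [mul_comm]

/-- Clipping to `[-b, b]`. -/
def clip (b t : ℝ) : ℝ := max (-b) (min b t)

lemma abs_clip_le {b : ℝ} (hb : 0 ≤ b) (t : ℝ) : |clip b t| ≤ b :=
  abs_le.2 ⟨le_max_left _ _, max_le (by linarith) (min_le_left _ _)⟩

lemma clip_eq {b t : ℝ} (h : |t| ≤ b) : clip b t = t := by
  simp [clip, min_eq_right (le_of_abs_le h), max_eq_right (neg_le_of_abs_le h)]

lemma measurable_theta (σ : Fin K → Bool) : Measurable fun θ : Factor K => theta θ σ := by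
  unfold theta factorWeight
  fun_prop

/-- The clipped Hamiltonian of clauses and fields. -/
def baseC (B H : ℝ) (b : Base K N) (σ : Fin N → Bool) : ℝ :=
  (∑ k : Fin b.1.1, clip B (theta (b.1.2 k).1 fun j => σ ((b.1.2 k).2 j))) +
    ∑ i, clip H (b.2 i) * spin (σ i)

lemma abs_baseC_le {B H : ℝ} (hB : 0 ≤ B) (hH : 0 ≤ H) (b : Base K N) (σ : Fin N → Bool) :
    |baseC B H b σ| ≤ B * b.1.1 + N * H := by
  refine (abs_add_le _ _).trans (add_le_add ?_ ?_)
  · refine (Finset.abs_sum_le_sum_abs _ _).trans ((Finset.sum_le_sum (g := fun _ => B)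
      fun k _ => abs_clip_le hB _).trans_eq (by simp [mul_comm]))
  · refine (Finset.abs_sum_le_sum_abs _ _).trans ((Finset.sum_le_sum (g := fun _ => H)
      fun i _ => ?_).trans_eq (by simp))
    rw [abs_mul]
    refine (mul_le_of_le_one_right (abs_nonneg _) ?_).trans (abs_clip_le hH _)
    cases σ i <;> simp [spin]

lemma measurable_clauseSum {M : ℕ} (B : ℝ) (σ : Fin N → Bool) :
    Measurable fun c : Fin M → Factor K × (Fin K → Fin N) =>
      ∑ k, clip B (theta (c k).1 fun j => σ ((c k).2 j)) := by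
  refine Finset.measurable_sum _ fun k _ => ?_
  have : Measurable fun z : Factor K × (Fin K → Fin N) => clip B (theta z.1 fun j => σ (z.2 j)) := by
    refine measurable_from_prod_countable_left fun ix => ?_
    exact measurable_const.max (measurable_const.min (measurable_theta fun j => σ (ix j)))
  exact this.comp (measurable_pi_apply k)

lemma measurable_baseC (B H : ℝ) (σ : Fin N → Bool) :
    Measurable fun b : Base K N => baseC B H b σ := by
  refine Measurable.add ?_ ?_
  · have : Measurable fun z : ℕ × (ℕ → Factor K × (Fin K → Fin N)) =>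
        ∑ k : Fin z.1, clip B (theta (z.2 k).1 fun j => σ ((z.2 k).2 j)) :=
      measurable_from_prod_countable_right fun n => (measurable_clauseSum B σ).comp
        (measurable_pi_lambda (fun (c : ℕ → Factor K × (Fin K → Fin N)) (k : Fin n) => c k)
          fun k => measurable_pi_apply (k : ℕ))
    exact this.comp measurable_fst
  · unfold clip
    fun_prop

lemma measurable_pertH (σ : Fin N → Bool) :
    Measurable fun z : Env p N × (Feat p.L p.S → ℝ) => pertH p x z.1 z.2 σ := by
  refine measurable_from_prod_countable_right fun e => ?_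
  simp only [pertH_eq]
  exact (measurable_field _ σ).const_add _

/-- The perturbed log partition function with clipped clauses and fields. -/
def phiC (B H : ℝ) (x : Obs p.L → ℝ) (d : Dis K p N) : ℝ :=
  logZ fun σ => baseC B H d.1 σ + pertH p x d.2.1 d.2.2 σ

lemma measurable_phiC (B H : ℝ) : Measurable (phiC (K := K) (N := N) B H x) :=
  (Finset.measurable_sum _ fun σ _ => (((measurable_baseC B H σ).comp measurable_fst).add
    ((measurable_pertH σ).comp measurable_snd)).exp).log

lemma abs_phiC_le {B H : ℝ} (hB : 0 ≤ B) (hH : 0 ≤ H) (hx : ∀ o, |x o| ≤ X₀) [NeZero N]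
    (b : Base K N) (w : Env p N × (Feat p.L p.S → ℝ)) :
    |phiC B H x (b, w)| ≤ |logZ (fun _ : Fin N → Bool => (0 : ℝ))| + (B * b.1.1 + N * H +
      (p.L * ((p.S : ℝ) / 8 + p.Q / 8) + p.s ^ 2 * (((p.L : ℝ) + 1) * X₀) +
        ∑ f, coefBound p X₀ f * |w.2 f|)) := by
  have hb : ∀ σ, |baseC B H b σ + pertH p x w.1 w.2 σ| ≤
      B * b.1.1 + N * H + (p.L * ((p.S : ℝ) / 8 + p.Q / 8) +
        p.s ^ 2 * (((p.L : ℝ) + 1) * X₀) + ∑ f, coefBound p X₀ f * |w.2 f|) := fun σ => by
    refine (abs_add_le _ _).trans (add_le_add (abs_baseC_le hB hH b σ) ?_)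
    rw [pertH_eq]
    refine (abs_add_le _ _).trans (add_le_add (abs_detPart_le hx _ σ) ?_)
    refine (Finset.abs_sum_le_sum_abs _ _).trans (Finset.sum_le_sum fun f _ => ?_)
    rw [abs_mul]
    exact mul_le_mul_of_nonneg_right (abs_coef_le hx _ σ f) (abs_nonneg _)
  have h := abs_logZ_sub_le' (fun _ : Fin N → Bool => (0 : ℝ))
    (fun σ => baseC B H b σ + pertH p x w.1 w.2 σ) hb
  simp only [zero_add] at h
  simp only [phiC]
  linarith [abs_sub_abs_le_abs_sub (logZ fun σ => baseC B H b σ + pertH p x w.1 w.2 σ)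
    (logZ fun _ : Fin N → Bool => (0 : ℝ))]

/-- The law of the environment and the Gaussian variables. -/
abbrev envJ (p : Params) (N : ℕ) : Measure (Env p N × (Feat p.L p.S → ℝ)) :=
  (unifFin (Env p N)).prod (gaussPi (Feat p.L p.S))

lemma isProbabilityMeasure_envJ (p : Params) (N : ℕ) [NeZero N] :
    IsProbabilityMeasure (envJ p N) := by
  have : NeZero p.Q := ⟨p.Q_pos.ne'⟩
  have iE := isProbabilityMeasure_unifFin (Env p N)
  infer_instance

lemma memLp_envJ (p : Params) (N : ℕ) [NeZero N] (X₀ : ℝ) :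
    MemLp (fun w : Env p N × (Feat p.L p.S → ℝ) => ∑ f, coefBound p X₀ f * |w.2 f|) 2
      (envJ p N) := by
  have : NeZero p.Q := ⟨p.Q_pos.ne'⟩
  have iE := isProbabilityMeasure_unifFin (Env p N)
  refine memLp_finsetSum _ fun f _ => MemLp.const_mul ?_ _
  exact (((memLp_id_gaussianReal 2).abs.comp_measurePreserving
    (measurePreserving_eval (fun _ : Feat p.L p.S => gauss) f)).comp_snd _)

lemma memLp_phiC_section {B H : ℝ} (hB : 0 ≤ B) (hH : 0 ≤ H) (hx : ∀ o, |x o| ≤ X₀) [NeZero N]
    (b : Base K N) : MemLp (fun w => phiC B H x (b, w)) 2 (envJ p N) := by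
  have := isProbabilityMeasure_envJ p N
  have hm : Measurable fun w : Env p N × (Feat p.L p.S → ℝ) => phiC B H x (b, w) :=
    (measurable_phiC B H).comp measurable_prodMk_left
  set C : ℝ := |logZ (fun _ : Fin N → Bool => (0 : ℝ))| + (B * b.1.1 + N * H +
    (p.L * ((p.S : ℝ) / 8 + p.Q / 8) + p.s ^ 2 * (((p.L : ℝ) + 1) * X₀))) with hC
  have hg : MemLp (fun w : Env p N × (Feat p.L p.S → ℝ) =>
      C + ∑ f, coefBound p X₀ f * |w.2 f|) 2 (envJ p N) := (memLp_const C).add (memLp_envJ p N X₀)
  have hle : ∀ w, |phiC B H x (b, w)| ≤ C + ∑ f, coefBound p X₀ f * |w.2 f| := fun w =>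
    (abs_phiC_le hB hH hx b w).trans_eq (by rw [hC]; ring)
  exact hg.mono hm.aestronglyMeasurable (ae_of_all _ fun w => by
    rw [Real.norm_eq_abs, Real.norm_eq_abs]
    exact (hle w).trans (le_abs_self _))

lemma memLp_phiC {B H : ℝ} (hB : 0 ≤ B) (hH : 0 ≤ H) (hx : ∀ o, |x o| ≤ X₀) (μ : ℝ≥0)
    (P : Measure (Factor K)) (Q : Measure ℝ) [IsProbabilityMeasure P] [IsProbabilityMeasure Q]
    [NeZero N] :
    MemLp (phiC B H x) 2 ((baseLaw N P Q μ).prod (envJ p N)) := by
  have iI := isProbabilityMeasure_unifFin (Fin K → Fin N)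
  have := isProbabilityMeasure_envJ p N
  have iB : IsProbabilityMeasure (baseLaw N P Q μ) := by unfold baseLaw; infer_instance
  have h1 : MemLp (fun b : Base K N => B * (b.1.1 : ℝ)) 2 (baseLaw N P Q μ) := by
    unfold baseLaw
    exact (((memLp_count μ).comp_fst _).comp_fst _).const_mul B
  set C : ℝ := |logZ (fun _ : Fin N → Bool => (0 : ℝ))| + N * H +
    (p.L * ((p.S : ℝ) / 8 + p.Q / 8) + p.s ^ 2 * (((p.L : ℝ) + 1) * X₀)) with hC
  have h2 := (h1.comp_fst (envJ p N)).add ((memLp_envJ p N X₀).comp_snd (baseLaw N P Q μ))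
  have hg : MemLp (fun d : Base K N × (Env p N × (Feat p.L p.S → ℝ)) =>
      C + (B * (d.1.1.1 : ℝ) + ∑ f, coefBound p X₀ f * |d.2.2 f|)) 2
      ((baseLaw N P Q μ).prod (envJ p N)) := (memLp_const C).add h2
  have hle : ∀ d : Base K N × (Env p N × (Feat p.L p.S → ℝ)), |phiC B H x d| ≤
      C + (B * (d.1.1.1 : ℝ) + ∑ f, coefBound p X₀ f * |d.2.2 f|) := fun d =>
    (abs_phiC_le hB hH hx d.1 d.2).trans_eq (by rw [hC]; ring)
  exact hg.mono (measurable_phiC B H).aestronglyMeasurable (ae_of_all _ fun d => by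
    rw [Real.norm_eq_abs, Real.norm_eq_abs]
    exact (hle d).trans (le_abs_self _))

/-- The mean over the environment and the Gaussian variables. -/
def baseMean (B H : ℝ) (x : Obs p.L → ℝ) (b : Base K N) : ℝ :=
  ∫ w, phiC B H x (b, w) ∂envJ p N

set_option linter.unusedSectionVars false

variable {B H : ℝ} [NeZero N]

lemma measurable_baseMean : Measurable (baseMean (K := K) (N := N) B H x) :=
  haveI := isProbabilityMeasure_envJ p N
  ((measurable_phiC B H).stronglyMeasurable.integral_prod_right').measurable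

lemma baseMean_sub (hB : 0 ≤ B) (hH : 0 ≤ H) (hx : ∀ o, |x o| ≤ X₀) (b b' : Base K N) {c : ℝ}
    (h : ∀ σ, |baseC B H b' σ - baseC B H b σ| ≤ c) :
    |baseMean B H x b - baseMean B H x b'| ≤ c := by
  have := isProbabilityMeasure_envJ p N
  rw [abs_sub_comm]
  refine abs_integral_sub_le ((memLp_phiC_section hB hH hx b').integrable one_le_two)
    ((memLp_phiC_section hB hH hx b).integrable one_le_two) fun w => ?_
  have h' := abs_logZ_sub_le' (fun σ => baseC B H b σ + pertH p x w.1 w.2 σ)
    (fun σ => baseC B H b' σ - baseC B H b σ) h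
  have e1 : (fun σ => baseC B H b σ + pertH p x w.1 w.2 σ + (baseC B H b' σ - baseC B H b σ)) =
      fun σ => baseC B H b' σ + pertH p x w.1 w.2 σ := by funext σ; ring
  rw [e1] at h'
  exact h'

omit [NeZero N] in
lemma abs_baseC_fields (hH : 0 ≤ H) (nc : ℕ × (ℕ → Factor K × (Fin K → Fin N)))
    (h h' : Fin N → ℝ) (σ : Fin N → Bool) :
    |baseC B H (nc, h') σ - baseC B H (nc, h) σ| ≤ N * (2 * H) := by
  simp only [baseC, add_sub_add_left_eq_sub, ← Finset.sum_sub_distrib]
  refine (Finset.abs_sum_le_sum_abs _ _).trans ((Finset.sum_le_sum (g := fun _ => 2 * H)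
    fun i _ => ?_).trans_eq (by simp))
  rw [← sub_mul, abs_mul]
  refine (mul_le_of_le_one_right (abs_nonneg _) (by cases σ i <;> simp [spin])).trans ?_
  exact (abs_sub _ _).trans (by linarith [abs_clip_le hH (h' i), abs_clip_le hH (h i)])

lemma memLp_baseMean_fields (hB : 0 ≤ B) (hH : 0 ≤ H) (hx : ∀ o, |x o| ≤ X₀)
    (nc : ℕ × (ℕ → Factor K × (Fin K → Fin N))) (Q : Measure ℝ) [IsProbabilityMeasure Q] :
    MemLp (fun h => baseMean B H x (nc, h)) 2 (Measure.pi fun _ : Fin N => Q) := by
  refine MemLp.of_bound ((measurable_baseMean.comp measurable_prodMk_left).aestronglyMeasurable)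
    (|baseMean B H x (nc, 0)| + N * (2 * H)) (ae_of_all _ fun h => ?_)
  have := baseMean_sub hB hH hx (nc, h) (nc, 0) (abs_baseC_fields (B := B) hH nc h 0)
  rw [Real.norm_eq_abs]
  linarith [abs_sub_abs_le_abs_sub (baseMean B H x (nc, h)) (baseMean B H x (nc, 0))]

lemma fields_variance (hB : 0 ≤ B) (hH : 0 ≤ H) (hx : ∀ o, |x o| ≤ X₀)
    (nc : ℕ × (ℕ → Factor K × (Fin K → Fin N))) (Q : Measure ℝ) [IsProbabilityMeasure Q] :
    variance (fun h => baseMean B H x (nc, h)) (Measure.pi fun _ : Fin N => Q) ≤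
      N * ((2 * H) ^ 2 / 2) := by
  refine (efronStein (fun _ : Fin N => Q) (measurable_baseMean.comp measurable_prodMk_left)
    (memLp_baseMean_fields hB hH hx nc Q) (d := fun _ _ _ => 2 * H) (fun _ => integrable_const _)
    fun h i a => ?_).trans_eq (by simp only [integral_const, probReal_univ, one_smul, Finset.sum_const, Finset.card_univ,
      Fintype.card_fin, nsmul_eq_mul]; ring)
  refine baseMean_sub hB hH hx _ _ fun σ => ?_
  simp only [baseC, add_sub_add_left_eq_sub, ← Finset.sum_sub_distrib]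
  rw [Fintype.sum_eq_single i fun j hj => by simp [Function.update_of_ne hj],
    Function.update_self, ← sub_mul, abs_mul]
  refine (mul_le_of_le_one_right (abs_nonneg _) (by cases σ i <;> simp [spin])).trans ?_
  exact (abs_sub _ _).trans (by linarith [abs_clip_le hH a, abs_clip_le hH (h i)])

/-- The mean also over the fields. -/
def clauseMean (B H : ℝ) (x : Obs p.L → ℝ) (Q : Measure ℝ)
    (nc : ℕ × (ℕ → Factor K × (Fin K → Fin N))) : ℝ :=
  ∫ h, baseMean B H x (nc, h) ∂(Measure.pi fun _ : Fin N => Q)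

variable {Q : Measure ℝ} [IsProbabilityMeasure Q]

lemma measurable_clauseMean : Measurable (clauseMean (K := K) (N := N) B H x Q) :=
  measurable_baseMean.stronglyMeasurable.integral_prod_right'.measurable

lemma clauseMean_sub (hB : 0 ≤ B) (hH : 0 ≤ H) (hx : ∀ o, |x o| ≤ X₀)
    (nc nc' : ℕ × (ℕ → Factor K × (Fin K → Fin N))) {c : ℝ}
    (h : ∀ h σ, |baseC B H (nc', h) σ - baseC B H (nc, h) σ| ≤ c) :
    |clauseMean B H x Q nc - clauseMean B H x Q nc'| ≤ c :=
  abs_integral_sub_le ((memLp_baseMean_fields hB hH hx nc Q).integrable one_le_two)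
    ((memLp_baseMean_fields hB hH hx nc' Q).integrable one_le_two)
    fun hh => baseMean_sub hB hH hx _ _ (h hh)

lemma abs_baseC_clauses (hB : 0 ≤ B) (n : ℕ) (c c' : ℕ → Factor K × (Fin K → Fin N))
    (h : Fin N → ℝ) (σ : Fin N → Bool) :
    |baseC B H ((n, c'), h) σ - baseC B H ((n, c), h) σ| ≤ n * (2 * B) := by
  simp only [baseC, add_sub_add_right_eq_sub, ← Finset.sum_sub_distrib]
  refine (Finset.abs_sum_le_sum_abs _ _).trans ((Finset.sum_le_sum (g := fun _ => 2 * B)
    fun i _ => (abs_sub _ _).trans ?_).trans_eq (by simp))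
  linarith [abs_clip_le hB (theta (c i).1 fun j => σ ((c i).2 j)),
    abs_clip_le hB (theta (c' i).1 fun j => σ ((c' i).2 j))]

lemma clauses_variance (hB : 0 ≤ B) (hH : 0 ≤ H) (hx : ∀ o, |x o| ≤ X₀) (n : ℕ)
    (P : Measure (Factor K)) [IsProbabilityMeasure P] :
    variance (fun c => clauseMean B H x Q (n, c))
        (Measure.infinitePi fun _ : ℕ => P.prod (unifFin (Fin K → Fin N))) ≤
      (n : ℝ) * ((2 * B) ^ 2 / 2) := by
  have iI := isProbabilityMeasure_unifFin (Fin K → Fin N)
  set ν := Measure.infinitePi fun _ : ℕ => P.prod (unifFin (Fin K → Fin N)) with hν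
  set z : Factor K × (Fin K → Fin N) := ((1, 0, 0), fun _ => 0) with hz
  set ext : (Fin n → Factor K × (Fin K → Fin N)) → (ℕ → Factor K × (Fin K → Fin N)) :=
    fun c k => if h : k < n then c ⟨k, h⟩ else z with hext
  set res : (ℕ → Factor K × (Fin K → Fin N)) → (Fin n → Factor K × (Fin K → Fin N)) :=
    fun c k => c k with hres
  have hresmp : MeasurePreserving res ν
      (Measure.pi fun _ : Fin n => P.prod (unifFin (Fin K → Fin N))) := by
    have hm : Measurable res := measurable_pi_lambda _ fun k => measurable_pi_apply _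
    refine ⟨hm, (Measure.pi_eq fun s hs => ?_).symm⟩
    rw [Measure.map_apply hm (MeasurableSet.univ_pi hs)]
    set t : ℕ → Set (Factor K × (Fin K → Fin N)) :=
      fun k => if h : k < n then s ⟨k, h⟩ else Set.univ with ht
    have e1 : res ⁻¹' Set.univ.pi s = Set.pi (↑(Finset.range n)) t := by
      ext c
      simp only [Set.mem_preimage, Set.mem_pi, Set.mem_univ, true_implies, Finset.coe_range,
        Set.mem_Iio, hres, ht]
      constructor
      · intro h k hk; rw [dif_pos hk]; exact h ⟨k, hk⟩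
      · intro h k; have := h k k.isLt; rwa [dif_pos k.isLt] at this
    rw [e1, hν, Measure.infinitePi_pi _ fun k hk => ?_, Finset.prod_range]
    · exact Finset.prod_congr rfl fun k _ => by simp [ht, k.isLt]
    · simp only [ht]; split_ifs; exacts [hs _, MeasurableSet.univ]
  have hFe : ∀ c, clauseMean B H x Q (n, c) = clauseMean B H x Q (n, ext (res c)) := by
    intro c
    have e : ∀ h, baseMean B H x ((n, c), h) = baseMean B H x ((n, ext (res c)), h) := by
      intro h
      have : ∀ σ, baseC B H ((n, c), h) σ = baseC B H ((n, ext (res c)), h) σ := fun σ => by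
        simp [baseC, hext, hres]
      simp only [baseMean, phiC, this]
    simp only [clauseMean, e]
  have hextm : Measurable ext := measurable_pi_lambda _ fun k => by
    by_cases hk : k < n
    · simp only [hext, dif_pos hk]; exact measurable_pi_apply _
    · simp only [hext, dif_neg hk]; exact measurable_const
  have hm : Measurable fun c => clauseMean B H x Q (n, ext c) :=
    measurable_clauseMean.comp (measurable_prodMk_left.comp hextm)
  rw [show (fun c => clauseMean B H x Q (n, c)) = fun c => clauseMean B H x Q (n, ext (res c))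
      from funext hFe, hresmp.variance_fun_comp hm.aemeasurable]
  refine (efronStein _ hm (MemLp.of_bound hm.aestronglyMeasurable
    (|clauseMean B H x Q (n, ext fun _ => z)| + n * (2 * B)) (ae_of_all _ fun c => ?_))
    (d := fun _ _ _ => 2 * B) (fun _ => integrable_const _) fun c k a => ?_).trans_eq
      (by simp only [integral_const, probReal_univ, one_smul, Finset.sum_const, Finset.card_univ,
      Fintype.card_fin, nsmul_eq_mul]; ring)
  · have := clauseMean_sub (Q := Q) hB hH hx (n, ext c) (n, ext fun _ => z)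
      (abs_baseC_clauses hB n _ _)
    rw [Real.norm_eq_abs]
    linarith [abs_sub_abs_le_abs_sub (clauseMean B H x Q (n, ext c))
      (clauseMean B H x Q (n, ext fun _ => z))]
  · refine clauseMean_sub hB hH hx _ _ fun h σ => ?_
    simp only [baseC, add_sub_add_right_eq_sub, ← Finset.sum_sub_distrib]
    rw [Fintype.sum_eq_single k fun j hj => by simp [hext, Function.update_of_ne hj]]
    refine (abs_sub _ _).trans ?_
    linarith [abs_clip_le hB (theta (ext (Function.update c k a) k).1 fun j =>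
        σ ((ext (Function.update c k a) k).2 j)),
      abs_clip_le hB (theta (ext c k).1 fun j => σ ((ext c k).2 j))]

lemma count_variance (hB : 0 ≤ B) (hH : 0 ≤ H) (hx : ∀ o, |x o| ≤ X₀) (μ : ℝ≥0)
    (P : Measure (Factor K)) [IsProbabilityMeasure P] {g : ℕ → ℝ}
    (hg : g = fun n => ∫ c, clauseMean B H x Q (n, c)
      ∂Measure.infinitePi fun _ : ℕ => P.prod (unifFin (Fin K → Fin N)))
    (hgL : MemLp g 2 (poissonMeasure μ)) :
    variance g (poissonMeasure μ) ≤ B ^ 2 * μ := by
  have iI := isProbabilityMeasure_unifFin (Fin K → Fin N)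
  set ν := Measure.infinitePi fun _ : ℕ => P.prod (unifFin (Fin K → Fin N)) with hν
  have hstep : ∀ (n : ℕ) (c : ℕ → Factor K × (Fin K → Fin N)), |clauseMean B H x Q (n + 1, c) - clauseMean B H x Q (n, c)| ≤ B :=
    fun n c => clauseMean_sub hB hH hx _ _ fun h σ => by
      simp only [baseC, add_sub_add_right_eq_sub]
      rw [abs_sub_comm, Fin.sum_univ_castSucc]
      simp only [Fin.val_castSucc, Fin.val_last, add_sub_cancel_left]
      exact abs_clip_le hB _
  set z : ℕ → Factor K × (Fin K → Fin N) := fun _ => ((1, 0, 0), fun _ => 0) with hz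
  have hi : ∀ n, Integrable (fun c => clauseMean B H x Q (n, c)) ν := by
    intro n
    refine Integrable.of_bound
      (measurable_clauseMean.comp measurable_prodMk_left).aestronglyMeasurable
      (|clauseMean B H x Q (n, z)| + n * (2 * B))
      (ae_of_all _ fun c => ?_)
    have := clauseMean_sub (Q := Q) hB hH hx (n, c) (n, z)
      (abs_baseC_clauses hB n _ _)
    rw [Real.norm_eq_abs]
    linarith [abs_sub_abs_le_abs_sub (clauseMean B H x Q (n, c))
      (clauseMean B H x Q (n, z))]
  have hgs : ∀ n, |g (n + 1) - g n| ≤ B := fun n => by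
    simp only [hg]
    exact abs_integral_sub_le (hi _) (hi _) (hstep n)
  have hlip : ∀ n m : ℕ, |g n - g m| ≤ B * |(n : ℝ) - m| := by
    intro n m
    rcases le_total n m with h | h
    · obtain ⟨k, rfl⟩ := Nat.exists_eq_add_of_le h
      rw [abs_sub_comm]
      exact (Toolkit.abs_le_linear hgs n k).trans_eq (by simp)
    · obtain ⟨k, rfl⟩ := Nat.exists_eq_add_of_le h
      exact (Toolkit.abs_le_linear hgs m k).trans_eq (by simp)
  have i1 : Integrable (fun n : ℕ => (n : ℝ) ^ 2) (poissonMeasure μ) := integrable_count_sq μ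
  refine (variance_le_of_dist hgL (d := fun n m => B * |(n : ℝ) - m|) ?_ hlip).trans_eq ?_
  · refine (((i1.comp_fst _).add (i1.comp_snd _)).const_mul (2 * B ^ 2)).mono'
      Measurable.of_discrete.aestronglyMeasurable (ae_of_all _ fun q => ?_)
    simp only [Pi.add_apply, mul_pow, sq_abs, Real.norm_eq_abs]
    rw [abs_of_nonneg (by positivity)]
    nlinarith [sq_nonneg B, sq_nonneg ((q.1 : ℝ) + q.2)]
  · simp only [mul_pow, sq_abs, integral_const_mul]
    have e : ∀ a : ℕ, ∫ b, ((a : ℝ) - b) ^ 2 ∂poissonMeasure μ =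
        (a : ℝ) ^ 2 + ((-2 * (a : ℝ)) * μ + (μ ^ 2 + μ)) := by
      intro a
      have h1 : ∀ b : ℕ, ((a : ℝ) - b) ^ 2 =
          (a : ℝ) ^ 2 + ((-2 * (a : ℝ)) * b + (b : ℝ) ^ 2) := fun b => by ring
      have i2 : Integrable (fun b : ℕ => (-2 * (a : ℝ)) * b + (b : ℝ) ^ 2)
          (poissonMeasure μ) := ((integrable_count μ).const_mul _).add i1
      simp_rw [h1]
      rw [integral_add (integrable_const _) i2,
        integral_add ((integrable_count μ).const_mul _) i1, integral_const_mul,
        Toolkit.integral_count, integral_count_sq]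
      simp
    simp_rw [e]
    have i3 : Integrable (fun a : ℕ => (-2 * (a : ℝ)) * μ + ((μ : ℝ) ^ 2 + μ))
        (poissonMeasure μ) :=
      (((integrable_count μ).const_mul _).mul_const _).add (integrable_const _)
    rw [integral_add i1 i3,
      integral_add (((integrable_count μ).const_mul _).mul_const _) (integrable_const _),
      integral_mul_const, integral_const_mul, integral_count_sq, Toolkit.integral_count]
    simp only [integral_const, probReal_univ, one_smul]
    ring

/-- The variance bound. -/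
theorem phiC_variance (hB : 0 ≤ B) (hH : 0 ≤ H) (hx : ∀ o, |x o| ≤ X₀) (μ : ℝ≥0)
    (P : Measure (Factor K)) (Q : Measure ℝ) [IsProbabilityMeasure P] [IsProbabilityMeasure Q] :
    variance (phiC B H x) ((baseLaw N P Q μ).prod (envJ p N)) ≤
      Fintype.card (Mono p.L) * (p.s ^ 2 * X₀ ^ 2) +
      (((p.L : ℝ) * ((p.Q : ℝ) / 8) ^ 2 / 2 + (p.L * p.Q : ℕ) * ((1 / 4 : ℝ) ^ 2 / 2)) +
        (p.L * p.S : ℕ) * ((1 / 4 + p.s ^ 2 * X₀ * (2 * ((p.L : ℝ) + 1) / p.S) +
          p.s ^ 2 * X₀ ^ 2 * (Fintype.card (Mono p.L) * ((p.L : ℝ) / p.S)) / 2) ^ 2 / 2)) +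
      (N * ((2 * H) ^ 2 / 2) + (μ * ((2 * B) ^ 2 / 2) + B ^ 2 * μ)) := by
  have : NeZero p.Q := ⟨p.Q_pos.ne'⟩
  have iI := isProbabilityMeasure_unifFin (Fin K → Fin N)
  have iE := isProbabilityMeasure_unifFin (Env p N)
  have := isProbabilityMeasure_envJ p N
  have iB : IsProbabilityMeasure (baseLaw N P Q μ) := by unfold baseLaw; infer_instance
  have hmem := memLp_phiC (N := N) (p := p) (x := x) hB hH hx μ P Q
  refine variance_prod_le hmem
    (g := fun _ => Fintype.card (Mono p.L) * (p.s ^ 2 * X₀ ^ 2) +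
      (((p.L : ℝ) * ((p.Q : ℝ) / 8) ^ 2 / 2 + (p.L * p.Q : ℕ) * ((1 / 4 : ℝ) ^ 2 / 2)) +
        (p.L * p.S : ℕ) * ((1 / 4 + p.s ^ 2 * X₀ * (2 * ((p.L : ℝ) + 1) / p.S) +
          p.s ^ 2 * X₀ ^ 2 * (Fintype.card (Mono p.L) * ((p.L : ℝ) / p.S)) / 2) ^ 2 / 2)))
    (integrable_const _) (fun b => ?_) (le_of_eq (by simp)) ?_
  · refine variance_prod_le (memLp_phiC_section hB hH hx b)
      (g := fun _ => Fintype.card (Mono p.L) * (p.s ^ 2 * X₀ ^ 2)) (integrable_const _)
      (fun e => ?_) (le_of_eq (by simp)) ?_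
    · have e1 : (fun J => phiC B H x (b, (e, J))) =
          fun J => logZ fun σ => (baseC B H b σ + detPart p x e σ) + field (coef p x e) J σ := by
        funext J
        simp only [phiC, pertH_eq, add_assoc]
      rw [e1]
      exact (field_variance _ _ fun σ f => abs_coef_le hx e σ f).trans_eq (sum_coefBound_sq p X₀)
    · exact env_variance hx (baseC B H b)
  · have hFL : MemLp (baseMean B H x) 2 (baseLaw N P Q μ) := (memLp_sections hmem).2
    change variance (baseMean B H x) _ ≤ _
    unfold baseLaw at hFL ⊢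
    have hF2L := (memLp_sections hFL).2
    refine variance_prod_le hFL (g := fun _ => (N : ℝ) * ((2 * H) ^ 2 / 2)) (integrable_const _)
      (fun nc => fields_variance hB hH hx nc Q) (le_of_eq (by simp)) ?_
    refine variance_prod_le hF2L (g := fun n : ℕ => (n : ℝ) * ((2 * B) ^ 2 / 2))
      ((integrable_count μ).mul_const _) (fun n => clauses_variance hB hH hx n P)
      (le_of_eq (by rw [integral_mul_const, Toolkit.integral_count])) ?_
    exact count_variance hB hH hx μ P rfl (memLp_sections hF2L).2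

end Vale.Agent.P168.Limit.SelfAvg
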