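import Vale.Agent.P168.Statements
import Vale.Agent.P168.Limit.System
import Vale.Agent.P168.Limit.SelfAvg.Gauss

/-! The perturbation: coefficient bounds and the effect of changing one piece of the environment. -/

open MeasureTheory ProbabilityTheory
open scoped BigOperators NNReal ENNReal

noncomputable section

namespace Vale.Agent.P168.Limit.SelfAvg

open Toolkit

lemma abs_prod_spin_le {ι : Type*} (s : Finset ι) (p : ι → Prop) [DecidablePred p] (z : ι → Bool) :
    |∏ i ∈ s, (if p i then spin (z i) else 1)| ≤ 1 := by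
  rw [Finset.abs_prod]
  refine Finset.prod_le_one (fun i _ => abs_nonneg _) fun i _ => ?_
  split_ifs <;> simp [spin]
  split_ifs <;> simp

lemma abs_slotPsi_le (g : ℕ) (z : Fin (arity g) → Bool) : |slotPsi g z| ≤ 1 := by
  unfold slotPsi
  split_ifs with hg
  · rw [Finset.abs_prod]
    refine Finset.prod_le_one (fun i _ => abs_nonneg _) fun i _ => ?_
    simp only [spin]
    split_ifs <;> simp
  · split
    · rename_i Γ s _
      unfold gadgetPsi
      set A := ∏ i : Fin (arity g), if (edgeAt Γ i).2.1 then spin (z i) else 1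
      set B := ∏ i : Fin (arity g), if (edgeAt Γ i).2.2 then spin (z i) else 1
      have hA : |A| ≤ 1 := abs_prod_spin_le _ _ z
      have hB : |B| ≤ 1 := abs_prod_spin_le _ _ z
      have hs : |spin s| = 1 := by cases s <;> simp [spin]
      rw [abs_div, abs_two, div_le_one two_pos]
      refine (abs_add_le _ _).trans ?_
      rw [abs_mul, hs, one_mul]
      linarith
    · simp

lemma abs_slotTilt_le (g : ℕ) (z : Fin (arity g) → Bool) : |slotTilt g z| ≤ 1 / 8 := by
  unfold slotTilt
  split_ifs with hg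
  · simp
  · split
    · rename_i Γ s _
      unfold gadgetTilt
      refine (Finset.abs_sum_le_sum_abs _ _).trans ((Finset.sum_le_sum fun a _ => ?_).trans
        (b := ∑ a, |Γ.tilt a|) ?_)
      · rw [abs_mul]
        exact mul_le_of_le_one_right (abs_nonneg _) (abs_prod_spin_le _ _ z)
      · by_cases h : ∑ i, |Γ.2.2 i| ≤ 1 / 8
        · simp only [Gadget.tilt, if_pos h]
          have : ((∑ i, |Γ.2.2 i| : ℚ) : ℝ) ≤ ((1 / 8 : ℚ) : ℝ) := by exact_mod_cast h
          push_cast at this
          exact this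
        · simp only [Gadget.tilt, if_neg h]
          simp
    · simp

variable {K N : ℕ} (p : Params)

lemma abs_psiAt_le (e : Env p N) (g : Fin p.L) (u : Fin p.S) (σ : Fin N → Bool) :
    |psiAt p e g u σ| ≤ 1 := abs_slotPsi_le _ _

lemma sq_featVal_le (e : Env p N) (f : Feat p.L p.S) (σ : Fin N → Bool) :
    featVal p e f σ ^ 2 ≤ ((p.S : ℝ) ^ f.1.1.val)⁻¹ := by
  have hS : (0 : ℝ) < p.S := by exact_mod_cast p.S_pos
  unfold featVal
  rw [← Finset.prod_pow]
  refine (Finset.prod_le_prod (fun i _ => sq_nonneg _) fun i _ => ?_).trans_eq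
    (show (∏ _i : Fin f.1.1.val, (p.S : ℝ)⁻¹) = _ by simp)
  rw [div_pow, Real.sq_sqrt hS.le, div_eq_mul_inv]
  refine mul_le_of_le_one_left (inv_nonneg.2 hS.le) ?_
  rw [← sq_abs]
  exact pow_le_one₀ (abs_nonneg _) (abs_psiAt_le p e _ _ σ)

/-- The coefficient of a Gaussian variable. -/
def coef (x : Obs p.L → ℝ) (e : Env p N) (σ : Fin N → Bool) (f : Feat p.L p.S) : ℝ :=
  p.s * x (Sum.inl f.1) * featVal p e f σ

/-- The part of the perturbation with no Gaussian variable. -/
def detPart (x : Obs p.L → ℝ) (e : Env p N) (σ : Fin N → Bool) : ℝ :=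
  tiltPart p e σ + p.s ^ 2 * ∑ o, x (Sum.inr o) * linObs p e o σ

lemma sum_mono_feat (G : Feat p.L p.S → ℝ) :
    ∑ f, G f = ∑ a : Mono p.L, ∑ v : Fin a.1.val → Fin p.S, G ⟨a, v⟩ := Fintype.sum_sigma G

lemma pertH_eq (x : Obs p.L → ℝ) (e : Env p N) (J : Feat p.L p.S → ℝ) (σ : Fin N → Bool) :
    pertH p x e J σ = detPart p x e σ + field (coef p x e) J σ := by
  have h : p.s * ∑ a, x (Sum.inl a) * gaussObs p e J a σ = field (coef p x e) J σ := by
    simp only [field, coef, gaussObs, Finset.mul_sum]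
    rw [sum_mono_feat]
    exact Finset.sum_congr rfl fun a _ => Finset.sum_congr rfl fun v _ => by ring
  simp only [pertH, detPart]
  rw [h]
  ring

variable {p}

lemma sq_coef_le {x : Obs p.L → ℝ} {X₀ : ℝ} (hx : ∀ o, |x o| ≤ X₀) (e : Env p N)
    (σ : Fin N → Bool) (f : Feat p.L p.S) :
    coef p x e σ f ^ 2 ≤ p.s ^ 2 * X₀ ^ 2 * ((p.S : ℝ) ^ f.1.1.val)⁻¹ := by
  simp only [coef, mul_pow]
  refine mul_le_mul (mul_le_mul_of_nonneg_left ?_ (sq_nonneg _)) (sq_featVal_le p e f σ)
    (sq_nonneg _) (mul_nonneg (sq_nonneg _) (sq_nonneg _))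
  rw [← sq_abs]
  exact pow_le_pow_left₀ (abs_nonneg _) (hx _) 2

lemma sum_inv_pow (a : Mono p.L) :
    ∑ _v : Fin a.1.val → Fin p.S, ((p.S : ℝ) ^ a.1.val)⁻¹ = 1 := by
  have hS : (p.S : ℝ) ≠ 0 := by exact_mod_cast p.S_pos.ne'
  rw [Finset.sum_const, Finset.card_univ, Fintype.card_fun, Fintype.card_fin, Fintype.card_fin,
    nsmul_eq_mul]
  push_cast
  exact mul_inv_cancel₀ (pow_ne_zero _ hS)

/-- The features that read slot `u` of type `g`. -/
def Reads (g : Fin p.L) (u : Fin p.S) (f : Feat p.L p.S) : Prop :=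
  ∃ i, f.1.2 i = g ∧ f.2 i = u

instance (g : Fin p.L) (u : Fin p.S) : DecidablePred (Reads g u) :=
  fun f => inferInstanceAs (Decidable (∃ i, f.1.2 i = g ∧ f.2 i = u))

lemma sum_reads_le (a : Mono p.L) (g : Fin p.L) (u : Fin p.S) :
    ∑ v : Fin a.1.val → Fin p.S, (if Reads g u ⟨a, v⟩ then ((p.S : ℝ) ^ a.1.val)⁻¹ else 0) ≤
      (p.L : ℝ) / p.S := by
  classical
  have hS : (0 : ℝ) < p.S := by exact_mod_cast p.S_pos
  set w : ℝ := ((p.S : ℝ) ^ a.1.val)⁻¹ with hw
  have hw0 : 0 ≤ w := by positivity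
  calc ∑ v : Fin a.1.val → Fin p.S, (if Reads g u ⟨a, v⟩ then w else 0)
      ≤ ∑ v : Fin a.1.val → Fin p.S, ∑ i, if v i = u then w else 0 := by
        refine Finset.sum_le_sum fun v _ => ?_
        split_ifs with h
        · obtain ⟨i, _, hi⟩ := h
          refine le_trans ?_ (Finset.single_le_sum (f := fun i => if v i = u then w else 0)
            (fun j _ => by positivity) (Finset.mem_univ i))
          simp only [if_pos hi, le_refl]
        · exact Finset.sum_nonneg fun j _ => by positivity
    _ = ∑ i : Fin a.1.val, (p.S : ℝ)⁻¹ := by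
        rw [Finset.sum_comm]
        refine Finset.sum_congr rfl fun i _ => ?_
        rw [← (Equiv.funSplitAt i (Fin p.S)).symm.sum_comp, Fintype.sum_prod_type]
        simp only [Equiv.funSplitAt_symm_apply, dite_true]
        rw [Fintype.sum_eq_single u fun b hb => by simp [hb]]
        simp only [if_true, Finset.sum_const, Finset.card_univ, Fintype.card_fun, Fintype.card_fin,
          nsmul_eq_mul, hw]
        have hd : a.1.val ≠ 0 := fun h => (h ▸ i).elim0
        rw [Fintype.card_subtype_compl, Fintype.card_fin, Fintype.card_subtype_eq]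
        obtain ⟨d, hd'⟩ := Nat.exists_eq_succ_of_ne_zero hd
        rw [hd', Nat.succ_sub_one, pow_succ]
        push_cast
        field_simp
    _ ≤ (p.L : ℝ) / p.S := by
        rw [Finset.sum_const, Finset.card_univ, Fintype.card_fin, nsmul_eq_mul, ← div_eq_mul_inv]
        gcongr
        exact Nat.lt_succ_iff.1 a.1.isLt

lemma slots_update (e : Env p N) (g : Fin p.L) (u : Fin p.S) (z : Fin (arity g) → Fin N)
    (g' : Fin p.L) (u' : Fin p.S) (h : ¬(g' = g ∧ u' = u)) :
    Function.update e.1 g (Function.update (e.1 g) u z) g' u' = e.1 g' u' := by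
  by_cases hg : g' = g
  · subst hg
    rw [Function.update_self, Function.update_of_ne fun hu => h ⟨rfl, hu⟩]
  · rw [Function.update_of_ne hg]

lemma abs_linObs_le (e : Env p N) (o : Option (Fin p.L)) (σ : Fin N → Bool) :
    |linObs p e o σ| ≤ 1 := by
  have hS : (0 : ℝ) < p.S := by exact_mod_cast p.S_pos
  have h1 : ∀ (g : Fin p.L) (t : Fin p.S → ℝ), (∀ u, |t u| ≤ 1) →
      |(∑ u, t u) / (p.S : ℝ)| ≤ 1 := by
    intro g t ht
    rw [abs_div, abs_of_pos hS, div_le_one hS]
    refine (Finset.abs_sum_le_sum_abs _ _).trans ((Finset.sum_le_sum fun u _ => ht u).trans ?_)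
    simp
  cases o with
  | none =>
    simp only [linObs, magSlot]
    by_cases hL : 0 < p.L
    · rw [Fintype.sum_eq_single ⟨0, hL⟩ fun b hb => if_neg fun h => hb (Fin.ext h)]
      simp only [if_true]
      exact h1 ⟨0, hL⟩ _ fun u => abs_psiAt_le p e _ u σ
    · have : IsEmpty (Fin p.L) := ⟨fun i => hL i.pos⟩
      simp
  | some g =>
    simp only [linObs, kern]
    refine h1 g _ fun u => ?_
    rw [abs_mul]
    exact mul_le_one₀ (abs_psiAt_le p e g u σ) (abs_nonneg _) (abs_psiAt_le p e g u σ)

variable {X₀ : ℝ} {x : Obs p.L → ℝ}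

/-- Changing one slot changes the deterministic part little. -/
lemma detPart_slot (hx : ∀ o, |x o| ≤ X₀) (e : Env p N) (g : Fin p.L) (u : Fin p.S)
    (z : Fin (arity g) → Fin N) (σ : Fin N → Bool) :
    |detPart p x (Function.update e.1 g (Function.update (e.1 g) u z), e.2) σ - detPart p x e σ| ≤
      1 / 4 + p.s ^ 2 * X₀ * (2 * ((p.L : ℝ) + 1) / p.S) := by
  classical
  set e' : Env p N := (Function.update e.1 g (Function.update (e.1 g) u z), e.2) with he'
  have hS : (0 : ℝ) < p.S := by exact_mod_cast p.S_pos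
  have hX : 0 ≤ X₀ := (abs_nonneg _).trans (hx (Sum.inr none))
  have hne : ∀ g' u', ¬(g' = g ∧ u' = u) → e'.1 g' u' = e.1 g' u' :=
    fun g' u' h => slots_update e g u z g' u' h
  have key : ∀ T : (g' : Fin p.L) → Fin p.S → (Fin (arity g') → Fin N) → ℝ, ∀ g' : Fin p.L,
      ∀ B : ℝ, (∀ u' w, |T g' u' w| ≤ B) →
      |(∑ u', T g' u' (e'.1 g' u')) - ∑ u', T g' u' (e.1 g' u')| ≤ if g' = g then 2 * B else 0 := by
    intro T g' B hB
    split_ifs with hg
    · subst hg
      rw [← Finset.sum_sub_distrib, Fintype.sum_eq_single u fun b hb => by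
        rw [hne g' b fun h => hb h.2, sub_self]]
      exact (abs_sub _ _).trans (by linarith [hB u (e'.1 g' u), hB u (e.1 g' u)])
    · rw [Finset.sum_congr rfl fun b _ => by rw [hne g' b fun h => hg h.1], sub_self, abs_zero]
  have h1 : |tiltPart p e' σ - tiltPart p e σ| ≤ 1 / 4 := by
    simp only [tiltPart]
    rw [← Finset.sum_sub_distrib]
    simp only [he', add_sub_add_right_eq_sub]
    refine (Finset.abs_sum_le_sum_abs _ _).trans ((Finset.sum_le_sum fun g' _ =>
      key (fun g' _ w => slotTilt g' fun i => σ (w i)) g' (1 / 8)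
        fun _ w => abs_slotTilt_le _ _).trans ?_)
    rw [Finset.sum_ite_eq' Finset.univ g (fun _ => 2 * (1 / 8 : ℝ))]
    norm_num
  have h2 : ∀ o, |linObs p e' o σ - linObs p e o σ| ≤ 2 / (p.S : ℝ) := by
    intro o
    cases o with
    | none =>
      simp only [linObs, magSlot, ← Finset.sum_sub_distrib]
      refine (Finset.abs_sum_le_sum_abs _ _).trans ((Finset.sum_le_sum (g := fun g' : Fin p.L =>
        if g' = g then 2 / (p.S : ℝ) else 0) fun g' _ => ?_).trans ?_)
      · split_ifs with h0 hg hg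
        · rw [← sub_div, abs_div, abs_of_pos hS]
          refine div_le_div_of_nonneg_right ?_ hS.le
          have := key (fun g' _ w => slotPsi g' fun i => σ (w i)) g' 1 fun _ w => abs_slotPsi_le _ _
          rw [if_pos hg] at this
          simpa [psiAt] using this
        · rw [← sub_div, abs_div, abs_of_pos hS]
          have := key (fun g' _ w => slotPsi g' fun i => σ (w i)) g' 1 fun _ w => abs_slotPsi_le _ _
          rw [if_neg hg] at this
          have h' : |(∑ u', psiAt p e' g' u' σ) - ∑ u', psiAt p e g' u' σ| ≤ 0 := by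
            simpa [psiAt] using this
          have := div_le_div_of_nonneg_right h' hS.le
          simpa using this
        · simp [le_of_lt, hS]
        · simp
      · rw [Finset.sum_ite_eq' Finset.univ g (fun _ => 2 / (p.S : ℝ))]
        simp
    | some g' =>
      simp only [linObs, kern, ← sub_div, abs_div, abs_of_pos hS]
      refine div_le_div_of_nonneg_right ?_ hS.le
      have := key (fun g' _ w => (slotPsi g' fun i => σ (w i)) * slotPsi g' fun i => σ (w i)) g' 1
        fun _ w => by
          rw [abs_mul]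
          exact mul_le_one₀ (abs_slotPsi_le _ _) (abs_nonneg _) (abs_slotPsi_le _ _)
      refine le_trans (by simpa [psiAt] using this) ?_
      split_ifs <;> norm_num
  have h3 : |∑ o, x (Sum.inr o) * linObs p e' o σ - ∑ o, x (Sum.inr o) * linObs p e o σ| ≤
      X₀ * (2 * ((p.L : ℝ) + 1) / p.S) := by
    rw [← Finset.sum_sub_distrib]
    refine (Finset.abs_sum_le_sum_abs _ _).trans ((Finset.sum_le_sum fun o _ => ?_).trans_eq
      (b := ∑ _o : Option (Fin p.L), X₀ * (2 / (p.S : ℝ))) ?_)
    · rw [← mul_sub, abs_mul]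
      exact mul_le_mul (hx _) (h2 o) (abs_nonneg _) hX
    · simp
      ring
  simp only [detPart]
  rw [add_sub_add_comm, ← mul_sub]
  refine (abs_add_le _ _).trans ?_
  rw [abs_mul, abs_of_nonneg (sq_nonneg p.s)]
  nlinarith [mul_le_mul_of_nonneg_left h3 (sq_nonneg p.s)]

/-- The mean of `log Z` over the Gaussian variables. -/
def gaussMean (x : Obs p.L → ℝ) (A : (Fin N → Bool) → ℝ) (e : Env p N) : ℝ :=
  ∫ J, (logZ fun σ => A σ + pertH p x e J σ) ∂gaussPi (Feat p.L p.S)

lemma gaussMean_eq (x : Obs p.L → ℝ) (A : (Fin N → Bool) → ℝ) (e : Env p N) :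
    gaussMean x A e =
      ∫ J, (logZ fun σ => (A σ + detPart p x e σ) + field (coef p x e) J σ)
        ∂gaussPi (Feat p.L p.S) := by
  simp only [gaussMean, pertH_eq, add_assoc]

/-- The influence of one slot. -/
lemma gaussMean_slot (hx : ∀ o, |x o| ≤ X₀) (A : (Fin N → Bool) → ℝ) (e : Env p N) (g : Fin p.L)
    (u : Fin p.S) (z : Fin (arity g) → Fin N) :
    |gaussMean x A e -
      gaussMean x A (Function.update e.1 g (Function.update (e.1 g) u z), e.2)| ≤
      1 / 4 + p.s ^ 2 * X₀ * (2 * ((p.L : ℝ) + 1) / p.S) +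
        p.s ^ 2 * X₀ ^ 2 * (Fintype.card (Mono p.L) * ((p.L : ℝ) / p.S)) / 2 := by
  classical
  set e' : Env p N := (Function.update e.1 g (Function.update (e.1 g) u z), e.2) with he'
  rw [gaussMean_eq, gaussMean_eq]
  refine field_change _ _ _ _ (Reads g u) (fun σ => ?_) (fun σ f hf => ?_) (fun σ => ?_) fun σ => ?_
  · rw [add_sub_add_left_eq_sub]
    exact detPart_slot hx e g u z σ
  · have : featVal p e' f σ = featVal p e f σ :=
      Finset.prod_congr rfl fun i _ => by
        simp only [psiAt, he']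
        rw [slots_update e g u z _ _ fun h => hf ⟨i, h⟩]
    simp only [coef, this]
  all_goals
    rw [sum_mono_feat]
    refine (Finset.sum_le_sum fun a _ => ?_).trans_eq
      (show ∑ _a : Mono p.L, p.s ^ 2 * X₀ ^ 2 * ((p.L : ℝ) / p.S) = _ by simp; ring)
    refine le_trans (Finset.sum_le_sum fun v _ => ?_)
      ((Finset.mul_sum _ _ _).symm.trans_le
        (mul_le_mul_of_nonneg_left (sum_reads_le a g u) (by positivity)))
    split_ifs with h
    · exact sq_coef_le hx _ σ _
    · simp

lemma integrable_gaussMean (x : Obs p.L → ℝ) (A : (Fin N → Bool) → ℝ) (e : Env p N) :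
    Integrable (fun J => logZ fun σ => A σ + pertH p x e J σ) (gaussPi (Feat p.L p.S)) := by
  simp only [pertH_eq, ← add_assoc]
  exact integrable_logZ_field _ _

/-- The influence of a change of the further tilts alone. -/
lemma gaussMean_extra (x : Obs p.L → ℝ) (A : (Fin N → Bool) → ℝ) (e : Env p N)
    (w : ((g : Fin p.L) → Fin p.Q → Fin (arity g) → Fin N) × (Fin p.L → Fin p.Q)) {c : ℝ}
    (h : ∀ σ, |tiltPart p (e.1, w) σ - tiltPart p e σ| ≤ c) :
    |gaussMean x A e - gaussMean x A (e.1, w)| ≤ c := by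
  rw [abs_sub_comm]
  simp only [gaussMean]
  rw [← integral_sub (integrable_gaussMean x A _) (integrable_gaussMean x A _), ← Real.norm_eq_abs]
  refine le_trans (norm_integral_le_of_norm_le_const (C := c) (ae_of_all _ fun J => ?_))
    (le_of_eq (by simp))
  have := abs_logZ_sub_le' (fun σ => A σ + pertH p x e J σ)
    (fun σ => pertH p x (e.1, w) J σ - pertH p x e J σ) fun σ => by
      have e1 : pertH p x (e.1, w) J σ - pertH p x e J σ =
          tiltPart p (e.1, w) σ - tiltPart p e σ := by
        have : ∀ o, linObs p ((e.1, w) : Env p N) o σ = linObs p e o σ := fun o => by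
          cases o <;> rfl
        have hg : ∀ a, gaussObs p ((e.1, w) : Env p N) J a σ = gaussObs p e J a σ := fun _ => rfl
        simp only [pertH, this, hg]
        ring
      rw [e1]
      exact h σ
  simp only [add_assoc, add_sub_cancel] at this
  exact this

end Vale.Agent.P168.Limit.SelfAvg
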